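import Vale.Agent.P080.Defs
import Mathlib.Analysis.Calculus.Gradient.Basic
import Mathlib.Analysis.Calculus.Rademacher
import Mathlib.Analysis.Calculus.BumpFunction.Convolution
import Mathlib.Analysis.Calculus.ContDiff.Convolution
import Mathlib.Analysis.Calculus.FDeriv.Measurable
import Mathlib.MeasureTheory.Measure.Lebesgue.EqHaar
import Mathlib.MeasureTheory.Function.L2Space

/-!
# Mollification of Lipschitz functions on `E d`
-/

namespace Vale.Agent.P080.C1.Approx

open scoped ContDiff Topology RealInnerProductSpace NNReal ENNReal Gradient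
open Set Filter Metric MeasureTheory Vale.Agent.P080

variable {d : ℕ} {F : Type*} [NormedAddCommGroup F] [NormedSpace ℝ F]

/-- mollifier of radius `r` (radius `1` if `r ≤ 0`) -/
noncomputable def bump (d : ℕ) (r : ℝ) : ContDiffBump (0 : E d) :=
  if hr : 0 < r then ⟨r / 2, r, half_pos hr, half_lt_self hr⟩
  else ⟨1 / 2, 1, by norm_num, by norm_num⟩

lemma bump_rOut {r : ℝ} (hr : 0 < r) : (bump d r).rOut = r := by simp [bump, hr]

lemma bump_rIn {r : ℝ} (hr : 0 < r) : (bump d r).rIn = r / 2 := by simp [bump, hr]

/-- mollifier weight -/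
noncomputable def wgt (d : ℕ) (n : ℝ) : E d → ℝ := (bump d n).normed volume

lemma wgt_nonneg (n : ℝ) (h : E d) : 0 ≤ wgt d n h := (bump d n).nonneg_normed h

lemma wgt_continuous (n : ℝ) : Continuous (wgt d n) := (bump d n).continuous_normed

lemma wgt_compact (n : ℝ) : HasCompactSupport (wgt d n) := (bump d n).hasCompactSupport_normed

lemma wgt_integral (n : ℝ) : ∫ h, wgt d n h = 1 := (bump d n).integral_normed

lemma wgt_eq_zero {n : ℝ} (hn : 0 < n) {h : E d} (hh : n ≤ ‖h‖) : wgt d n h = 0 := by
  have : h ∉ Function.support ((bump d n).normed volume) := by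
    rw [ContDiffBump.support_normed_eq, mem_ball, dist_zero_right, not_lt, bump_rOut hn]; exact hh
  simpa [Function.mem_support, wgt] using this

/-- mollification -/
noncomputable def mol (n : ℝ) (g : E d → F) (x : E d) : F := ∫ h, wgt d n h • g (x - h)

lemma mol_eq_convolution (n : ℝ) (g : E d → F) :
    mol n g = convolution ((bump d n).normed volume) g (ContinuousLinearMap.lsmul ℝ ℝ) volume :=
  rfl

/-- bounded measurable functions can be averaged against the mollifier -/
lemma integrable_wgt_smul (n : ℝ) {g : E d → F} (hg : AEStronglyMeasurable g volume) {C : ℝ}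
    (hb : ∀ y, ‖g y‖ ≤ C) (x : E d) : Integrable fun h => wgt d n h • g (x - h) := by
  refine Integrable.mono' (((bump d n).integrable_normed (μ := volume)).mul_const C) ?_
    (Eventually.of_forall fun h => ?_)
  · exact (wgt_continuous n).aestronglyMeasurable.smul
      (hg.comp_measurePreserving (Measure.measurePreserving_sub_left volume x))
  · rw [norm_smul, Real.norm_eq_abs, abs_of_nonneg (wgt_nonneg n h)]
    exact mul_le_mul_of_nonneg_left (hb _) (wgt_nonneg n h)

lemma integrable_wgt_smul_continuous (n : ℝ) {g : E d → F} (hg : Continuous g) (x : E d) :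
    Integrable fun h => wgt d n h • g (x - h) :=
  ((wgt_continuous n).smul (hg.comp (continuous_const.sub continuous_id)))
    |>.integrable_of_hasCompactSupport ((wgt_compact n).smul_right)

lemma norm_mol_le (n : ℝ) {g : E d → F} {C : ℝ}
    (hb : ∀ y, ‖g y‖ ≤ C) (x : E d) : ‖mol n g x‖ ≤ C := by
  calc ‖mol n g x‖ ≤ ∫ h, wgt d n h * C := by
        refine norm_integral_le_of_norm_le ((bump d n).integrable_normed.mul_const C)
          (Eventually.of_forall fun h => ?_)
        rw [norm_smul, Real.norm_eq_abs, abs_of_nonneg (wgt_nonneg n h)]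
        exact mul_le_mul_of_nonneg_left (hb _) (wgt_nonneg n h)
    _ = C := by rw [integral_mul_const, wgt_integral, one_mul]

lemma contDiff_mol (n : ℝ) {g : E d → ℝ} (hg : LocallyIntegrable g) :
    ContDiff ℝ ∞ (mol n g) := by
  rw [mol_eq_convolution]
  exact HasCompactSupport.contDiff_convolution_left _ (wgt_compact n)
    (bump d n).contDiff_normed hg

lemma lipschitzWith_mol (n : ℝ) {v : E d → ℝ} {K : ℝ≥0} (hv : LipschitzWith K v) :
    LipschitzWith K (mol n v) := by
  refine LipschitzWith.of_dist_le_mul fun x y => ?_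
  simp only [dist_eq_norm]
  have hI := integrable_wgt_smul_continuous n hv.continuous
  calc ‖mol n v x - mol n v y‖ = ‖∫ h, (wgt d n h • v (x - h) - wgt d n h • v (y - h))‖ := by
        rw [integral_sub (hI x) (hI y)]; rfl
    _ ≤ ∫ h, wgt d n h * (K * ‖x - y‖) := by
        refine norm_integral_le_of_norm_le ((bump d n).integrable_normed.mul_const _)
          (Eventually.of_forall fun h => ?_)
        rw [← smul_sub, norm_smul, Real.norm_eq_abs, abs_of_nonneg (wgt_nonneg n h)]
        refine mul_le_mul_of_nonneg_left ?_ (wgt_nonneg n h)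
        have := hv.dist_le_mul (x - h) (y - h)
        simpa [dist_eq_norm, Real.norm_eq_abs] using this
    _ = K * ‖x - y‖ := by rw [integral_mul_const, wgt_integral, one_mul]

lemma abs_mol_sub_le {n : ℝ} (hn : 0 < n) {v : E d → ℝ} {K : ℝ≥0} (hv : LipschitzWith K v) (x : E d) :
    |mol n v x - v x| ≤ K * n := by
  have hI := integrable_wgt_smul_continuous n hv.continuous x
  have hc : Integrable fun h => wgt d n h • v x := (bump d n).integrable_normed.smul_const _
  have h1 : mol n v x - v x = ∫ h, (wgt d n h • v (x - h) - wgt d n h • v x) := by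
    rw [integral_sub hI hc, integral_smul_const, wgt_integral, one_smul]; rfl
  rw [← Real.norm_eq_abs, h1]
  calc ‖∫ h, (wgt d n h • v (x - h) - wgt d n h • v x)‖
      ≤ ∫ h, wgt d n h * (K * n) := by
        refine norm_integral_le_of_norm_le ((bump d n).integrable_normed.mul_const _)
          (Eventually.of_forall fun h => ?_)
        rw [← smul_sub, norm_smul, Real.norm_eq_abs, abs_of_nonneg (wgt_nonneg n h)]
        by_cases hh : n ≤ ‖h‖
        · simp [wgt_eq_zero hn hh]
        refine mul_le_mul_of_nonneg_left ?_ (wgt_nonneg n h)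
        have := hv.dist_le_mul (x - h) x
        rw [dist_eq_norm, dist_eq_norm, sub_sub_cancel_left, norm_neg] at this
        exact this.trans (mul_le_mul_of_nonneg_left (not_le.1 hh).le K.2)
    _ = _ := by rw [integral_mul_const, wgt_integral, one_mul]

lemma norm_gradient_le {v : E d → ℝ} {K : ℝ≥0} (hv : LipschitzWith K v) (x : E d) :
    ‖∇ v x‖ ≤ K := by
  rw [gradient, LinearIsometryEquiv.norm_map]
  exact norm_fderiv_le_of_lipschitz ℝ hv

lemma measurable_gradient (v : E d → ℝ) : Measurable (fun x => ∇ v x) :=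
  ((InnerProductSpace.toDual ℝ (E d)).symm.continuous.measurable).comp (measurable_fderiv ℝ v)

lemma inner_gradient (v : E d → ℝ) (x e : E d) : ⟪∇ v x, e⟫ = fderiv ℝ v x e := by
  rw [gradient, InnerProductSpace.toDual_symm_apply]

/-- The gradient of a mollified Lipschitz function is the mollified gradient. -/
lemma gradient_mol (n : ℝ) {v : E d → ℝ} {K : ℝ≥0} (hv : LipschitzWith K v) (x : E d) :
    ∇ (mol n v) x = mol n (fun y => ∇ v y) x := by
  refine ext_inner_right ℝ fun e => ?_
  have hint := integrable_wgt_smul n (measurable_gradient v).aestronglyMeasurable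
    (norm_gradient_le hv) x
  rw [inner_gradient, mol, real_inner_comm, ← integral_inner hint e]
  have hD : DifferentiableAt ℝ (mol n v) x :=
    ((contDiff_mol n hv.continuous.locallyIntegrable).differentiable (by simp)).differentiableAt
  have h1 : HasLineDerivAt ℝ (mol n v) (fderiv ℝ (mol n v) x e) x e :=
    hD.hasFDerivAt.hasLineDerivAt e
  have h2 : Tendsto (fun t : ℝ => ∫ h, wgt d n h • (t⁻¹ • (v (x - h + t • e) - v (x - h))))
      (𝓝[≠] 0) (𝓝 (∫ h, ⟪e, wgt d n h • ∇ v (x - h)⟫)) := by
    refine tendsto_integral_filter_of_dominated_convergence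
      (fun h => wgt d n h * (K * ‖e‖)) (Eventually.of_forall fun t => ?_)
      (Eventually.of_forall fun t => Eventually.of_forall fun h => ?_)
      ((bump d n).integrable_normed.mul_const _) ?_
    · have := hv.continuous
      exact ((wgt_continuous n).smul (by fun_prop :
        Continuous fun h : E d => t⁻¹ • (v (x - h + t • e) - v (x - h)))).aestronglyMeasurable
    · rw [norm_smul, Real.norm_eq_abs, abs_of_nonneg (wgt_nonneg n h), norm_smul]
      refine mul_le_mul_of_nonneg_left ?_ (wgt_nonneg n h)
      have := hv.dist_le_mul (x - h + t • e) (x - h)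
      rw [dist_eq_norm, dist_eq_norm, add_sub_cancel_left, norm_smul] at this
      calc ‖t⁻¹‖ * ‖v (x - h + t • e) - v (x - h)‖ ≤ ‖t⁻¹‖ * (K * (‖t‖ * ‖e‖)) :=
            mul_le_mul_of_nonneg_left this (norm_nonneg _)
        _ ≤ K * ‖e‖ := by
            rcases eq_or_ne t 0 with rfl | ht
            · simp; positivity
            · rw [norm_inv]; field_simp [norm_ne_zero_iff.2 ht]; exact le_rfl
    · have hd : ∀ᵐ h, DifferentiableAt ℝ v (x - h) :=
        (Measure.measurePreserving_sub_left volume x).quasiMeasurePreserving.ae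
          (hv.ae_differentiableAt)
      filter_upwards [hd] with h hh
      have := (hh.hasFDerivAt.hasLineDerivAt e).tendsto_slope_zero
      rw [real_inner_comm, real_inner_smul_left, inner_gradient, ← smul_eq_mul]
      exact this.const_smul _
  refine tendsto_nhds_unique h1.tendsto_slope_zero (h2.congr' (Eventually.of_forall fun t => ?_))
  have e1 : ∀ h, x - h + t • e = (x + t • e) - h := fun h => by abel
  have hI := integrable_wgt_smul_continuous n hv.continuous
  simp only [e1, smul_comm (wgt d n _) t⁻¹, smul_sub]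
  rw [integral_sub (f := fun h => t⁻¹ • wgt d n h • v (x + t • e - h))
    (g := fun h => t⁻¹ • wgt d n h • v (x - h)) ((hI _).smul t⁻¹) ((hI _).smul t⁻¹),
    integral_smul, integral_smul]
  simp only [mol]

/-- Jensen's inequality for mollification, in supporting-plane form. -/
lemma convex_mol_le (n : ℝ) {g : E d → E d} (hg : AEStronglyMeasurable g volume) {C : ℝ}
    (hb : ∀ y, ‖g y‖ ≤ C) {Φ : E d → ℝ} (hΦc : Continuous Φ) {D : E d → E d}
    (hΦ : ∀ p q, Φ p + ⟪D p, q - p⟫ ≤ Φ q) (x : E d) :
    Φ (mol n g x) ≤ ∫ h, wgt d n h • Φ (g (x - h)) := by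
  obtain ⟨B, hB⟩ := (isCompact_closedBall (0 : E d) C).exists_bound_of_continuousOn hΦc.continuousOn
  have hI := integrable_wgt_smul n hg hb x
  have hJ : Integrable fun h => wgt d n h • Φ (g (x - h)) :=
    integrable_wgt_smul n (g := fun y => Φ (g y)) (hΦc.comp_aestronglyMeasurable hg)
      (C := B) (fun y => hB _ (by simpa using hb y)) x
  set m := mol n g x
  have hc : Integrable fun h => wgt d n h • (Φ m - ⟪D m, m⟫) :=
    (bump d n).integrable_normed.smul_const _
  have key : ∫ h, (wgt d n h • (Φ m - ⟪D m, m⟫) + ⟪D m, wgt d n h • g (x - h)⟫)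
      ≤ ∫ h, wgt d n h • Φ (g (x - h)) := by
    refine integral_mono (hc.add (Integrable.const_inner (D m) hI)) hJ fun h => ?_
    simp only [smul_eq_mul, real_inner_smul_right]
    have := hΦ m (g (x - h))
    rw [inner_sub_right] at this
    nlinarith [wgt_nonneg n h]
  rw [integral_add hc (Integrable.const_inner (D m) hI), integral_smul_const, wgt_integral, one_smul,
    integral_inner hI] at key
  change Φ m - ⟪D m, m⟫ + ⟪D m, m⟫ ≤ _ at key
  linarith

/-- Mollification preserves the integral of a nonnegative function. -/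
lemma lintegral_mol (n : ℝ) {f : E d → ℝ≥0∞} (hf : Measurable f) :
    ∫⁻ x, ∫⁻ h, ENNReal.ofReal (wgt d n h) * f (x - h) = ∫⁻ x, f x := by
  have hw : Measurable fun h => ENNReal.ofReal (wgt d n h) :=
    (wgt_continuous n).measurable.ennreal_ofReal
  rw [lintegral_lintegral_swap (((hw.comp measurable_snd).mul
    (hf.comp (measurable_fst.sub measurable_snd))).aemeasurable)]
  have : ∀ h, ∫⁻ x, ENNReal.ofReal (wgt d n h) * f (x - h)
      = ENNReal.ofReal (wgt d n h) * ∫⁻ x, f x := fun h => by
    rw [lintegral_const_mul _ (f := fun x => f (x - h)) (hf.comp (measurable_id.sub_const h)),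
      lintegral_sub_right_eq_self f h]
  simp only [this]
  rw [lintegral_mul_const _ hw, ← ofReal_integral_eq_lintegral_ofReal
    (f := wgt d n) (bump d n).integrable_normed (Eventually.of_forall (wgt_nonneg n)),
    wgt_integral, ENNReal.ofReal_one, one_mul]

/-- a.e. convergence of mollifications -/
lemma ae_tendsto_mol {g : E d → F} [CompleteSpace F] (hg : LocallyIntegrable g) :
    ∀ᵐ x, Tendsto (fun r => mol r g x) (𝓝[>] 0) (𝓝 (g x)) := by
  have hpos : ∀ᶠ r : ℝ in 𝓝[>] 0, 0 < r := self_mem_nhdsWithin
  have h1 : Tendsto (fun r => (bump d r).rOut) (𝓝[>] 0) (𝓝 0) :=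
    (tendsto_id.mono_left nhdsWithin_le_nhds).congr' (hpos.mono fun r hr => (bump_rOut hr).symm)
  have h2 : ∀ᶠ r in 𝓝[>] 0, (bump d r).rOut ≤ 2 * (bump d r).rIn :=
    hpos.mono fun r hr => le_of_eq (by rw [bump_rOut hr, bump_rIn hr]; ring)
  simpa only [mol_eq_convolution] using
    ContDiffBump.ae_convolution_tendsto_right_of_locallyIntegrable h1 h2 hg

/-- a standard sequence of radii -/
lemma tendsto_radius : Tendsto (fun n : ℕ => 1 / ((n : ℝ) + 1)) atTop (𝓝[>] 0) :=
  tendsto_nhdsWithin_iff.2 ⟨tendsto_one_div_add_atTop_nhds_zero_nat,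
    Eventually.of_forall fun n => show (0 : ℝ) < 1 / ((n : ℝ) + 1) by positivity⟩

omit [NormedSpace ℝ F] in
lemma locallyIntegrable_of_bounded {g : E d → F} (hg : AEStronglyMeasurable g volume) {C : ℝ}
    (hb : ∀ y, ‖g y‖ ≤ C) : LocallyIntegrable g :=
  locallyIntegrable_iff.2 fun _ hK => Measure.integrableOn_of_bounded hK.measure_lt_top.ne hg
    (Eventually.of_forall hb)

lemma tendsto_mol {v : E d → ℝ} {K : ℝ≥0} (hv : LipschitzWith K v) (z : E d) :
    Tendsto (fun r => mol r v z) (𝓝[>] 0) (𝓝 (v z)) := by
  rw [tendsto_iff_norm_sub_tendsto_zero]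
  refine squeeze_zero' (Eventually.of_forall fun n => norm_nonneg _)
    (eventually_of_mem self_mem_nhdsWithin fun r hr => abs_mol_sub_le hr hv z) ?_
  simpa using ((continuous_const.mul continuous_id).tendsto' (0 : ℝ) 0 (by simp)).mono_left
    (nhdsWithin_le_nhds (a := (0 : ℝ)) (s := Ioi 0)) (f := fun r : ℝ => (K : ℝ) * r)

/-- A Lipschitz function with a.e. vanishing gradient is constant. -/
lemma eq_of_gradient_ae_zero {v : E d → ℝ} {K : ℝ≥0} (hv : LipschitzWith K v)
    (h : ∀ᵐ x, ∇ v x = 0) (x y : E d) : v x = v y := by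
  have hz : ∀ n z, ∇ (mol n v) z = 0 := fun n z => by
    rw [gradient_mol n hv z]
    refine integral_eq_zero_of_ae ?_
    filter_upwards [(Measure.measurePreserving_sub_left volume z).quasiMeasurePreserving.ae h]
      with p hp
    simp [hp]
  have hc : ∀ n, mol n v x = mol n v y := fun n => by
    refine is_const_of_fderiv_eq_zero (𝕜 := ℝ)
      ((contDiff_mol n hv.continuous.locallyIntegrable).differentiable (by simp)) (fun z => ?_) x y
    rw [← toDual_gradient, hz n z, map_zero]
  exact tendsto_nhds_unique (tendsto_mol hv x) ((tendsto_mol hv y).congr fun n => (hc n).symm)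

end Vale.Agent.P080.C1.Approx
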