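import Vale.Agent.P080.C1.Approx.Basic
import Mathlib.Analysis.Calculus.BumpFunction.InnerProduct

/-!
# Integration by parts against Lipschitz test functions
-/

namespace Vale.Agent.P080.C1.Approx

open scoped ContDiff Topology RealInnerProductSpace NNReal ENNReal Gradient
open Set Filter Metric MeasureTheory Vale.Agent.P080

variable {d : ℕ}

/-! ### second derivatives -/

lemma fderiv_apply_eq_sum (φ : E d → ℝ) (y p : E d) : fderiv ℝ φ y p = ∑ j, p j * pd j φ y := by
  conv_lhs => rw [← (EuclideanSpace.basisFun (Fin d) ℝ).sum_repr p, map_sum]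
  simp [pd]

lemma differentiable_pd {φ : E d → ℝ} (hφ : ContDiff ℝ 2 φ) (i : Fin d) :
    ContDiff ℝ 1 (pd i φ) :=
  (hφ.fderiv_right (m := 1) (by norm_num)).clm_apply contDiff_const

lemma infLap_eq {φ : E d → ℝ} (hφ : ContDiff ℝ 2 φ) (z : E d) :
    infLap φ z = fderiv ℝ (fun y => fderiv ℝ φ y (∇ φ z)) z (∇ φ z) := by
  have hp : ∀ i, (∇ φ z) i = pd i φ z := fun i => by
    rw [← inner_single (∇ φ z) i, inner_gradient]; rfl
  simp only [fderiv_apply_eq_sum φ _ (∇ φ z)]
  rw [fderiv_apply_eq_sum]
  unfold infLap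
  refine Finset.sum_congr rfl fun i _ => ?_
  have hd : HasFDerivAt (fun y => ∑ j, (∇ φ z) j * pd j φ y)
      (∑ j, (∇ φ z) j • fderiv ℝ (pd j φ) z) z :=
    HasFDerivAt.fun_sum fun j _ =>
      (((differentiable_pd hφ j).differentiable (by norm_num)) z).hasFDerivAt.const_mul _
  have hf : fderiv ℝ (fun y => ∑ j, (∇ φ z) j * pd j φ y) z
      = ∑ j, (∇ φ z) j • fderiv ℝ (pd j φ) z := hd.fderiv
  change _ = (∇ φ z) i * fderiv ℝ _ z (EuclideanSpace.single i 1)
  rw [hf]
  simp only [sum_apply, smul_apply, smul_eq_mul, Finset.mul_sum]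
  exact Finset.sum_congr rfl fun j _ => by rw [hp i, hp j, pd, pd, pd]; ring

/-! ### integration by parts against a smooth field -/

lemma integral_mul_pd {f : E d → ℝ} {Lf : ℝ≥0} (hf : LipschitzWith Lf f) (hfc : HasCompactSupport f)
    {F : E d → ℝ} (hF : ContDiff ℝ 1 F) (i : Fin d) :
    ∫ x, F x * pd i f x = -∫ x, pd i F x * f x := by
  obtain ⟨R, hR⟩ := hfc.isCompact.isBounded.subset_closedBall (0 : E d)
  set χ : ContDiffBump (0 : E d) := ⟨|R| + 1, |R| + 2, by positivity, by linarith⟩
  set e : E d := EuclideanSpace.single i 1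
  have hP : ContDiff ℝ 1 fun x => χ x * F x := χ.contDiff.mul hF
  have hPc : HasCompactSupport fun x => χ x * F x := χ.hasCompactSupport.mul_right
  obtain ⟨D, hD⟩ : ∃ D, LipschitzWith D fun x => χ x * F x :=
    ⟨_, (hP.lipschitzWith_of_hasCompactSupport hPc (by norm_num)).choose_spec⟩
  have hone : ∀ x ∈ tsupport f, (fun y => χ y * F y) =ᶠ[𝓝 x] F := fun x hx => by
    have hx' : x ∈ ball (0 : E d) (|R| + 1) := by
      have := hR hx; rw [mem_closedBall] at this; rw [mem_ball]; linarith [le_abs_self R]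
    filter_upwards [χ.eventuallyEq_one_of_mem_ball hx'] with y hy
    simp [hy]
  have h := LipschitzWith.integral_lineDeriv_mul_eq (μ := volume) hf hD hPc e
  calc ∫ x, F x * pd i f x = ∫ x, lineDeriv ℝ f x e * (χ x * F x) := by
        refine integral_congr_ae ?_
        filter_upwards [hf.ae_differentiableAt (μ := volume)] with x hx
        rw [hx.lineDeriv_eq_fderiv]
        by_cases hs : x ∈ tsupport f
        · have := (hone x hs).eq_of_nhds
          rw [this, pd, mul_comm]
        · rw [pd, fderiv_of_notMem_tsupport ℝ hs]; simp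
    _ = ∫ x, lineDeriv ℝ (fun y => χ y * F y) x (-e) * f x := h
    _ = ∫ x, -(pd i F x * f x) := by
        refine integral_congr_ae (Eventually.of_forall fun x => ?_)
        by_cases hs : x ∈ tsupport f
        · simp only
          rw [((hP.differentiable (by norm_num)) x).lineDeriv_eq_fderiv, (hone x hs).fderiv_eq,
            map_neg, pd, neg_mul]
        · simp [image_eq_zero_of_notMem_tsupport hs]
    _ = _ := integral_neg _

end Vale.Agent.P080.C1.Approx
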