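import Vale.Agent.P080.C1.Approx.Minimiser
import Vale.Agent.P080.C1.Approx.Parts

/-!
# Hilbert-Haar: plane comparison and translation comparison for minimisers
-/

namespace Vale.Agent.P080.C1.Approx

open scoped ContDiff Topology RealInnerProductSpace NNReal ENNReal Gradient
open Set Filter Metric MeasureTheory Vale.Agent.P080

variable {d : ℕ}

lemma integral_inner_gradient_eq_zero {f : E d → ℝ} {Lf : ℝ≥0} (hf : LipschitzWith Lf f)
    (hfc : HasCompactSupport f) (a : E d) :
    Integrable (fun x => ⟪a, ∇ f x⟫) ∧ ∫ x, ⟪a, ∇ f x⟫ = 0 := by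
  have hi : ∀ i, Integrable fun x => pd i f x := fun i => by
    refine (((integrableOn_const (C := (Lf : ℝ)) hfc.isCompact.measure_lt_top.ne)
      |>.integrable_indicator hfc.isCompact.measurableSet).mono' ?_ (Eventually.of_forall fun x => ?_))
    · exact (measurable_fderiv_apply_const ℝ f _).aestronglyMeasurable
    · by_cases hx : x ∈ tsupport f
      · rw [indicator_of_mem hx]
        refine (ContinuousLinearMap.le_opNorm _ _).trans ?_
        rw [PiLp.norm_single, norm_one, mul_one]
        exact norm_fderiv_le_of_lipschitz ℝ hf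
      · rw [indicator_of_notMem hx, pd, fderiv_of_notMem_tsupport ℝ hx]; simp
  have e : (fun x => ⟪a, ∇ f x⟫) = fun x => ∑ j, a j * pd j f x := by
    funext x; rw [real_inner_comm, inner_gradient, fderiv_apply_eq_sum]
  rw [e]
  refine ⟨integrable_finsetSum _ fun j _ => (hi j).const_mul _, ?_⟩
  rw [integral_finsetSum _ fun j _ => (hi j).const_mul _]
  refine Finset.sum_eq_zero fun j _ => ?_
  have h := integral_mul_pd hf hfc (F := fun _ => (1 : ℝ)) contDiff_const j
  simp only [one_mul, pd, fderiv_fun_const, Pi.zero_apply, zero_apply,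
    zero_mul, integral_zero, neg_zero] at h
  rw [integral_const_mul, show (∫ x, pd j f x) = 0 from h, mul_zero]

lemma integrable_normSq_gradient {f : E d → ℝ} {Lf : ℝ≥0} (hf : LipschitzWith Lf f)
    (hfc : HasCompactSupport f) (c : ℝ) : Integrable fun x => ‖∇ f x‖ ^ 2 / c := by
  refine ((((integrableOn_const (C := (Lf : ℝ) ^ 2) hfc.isCompact.measure_lt_top.ne)
      |>.integrable_indicator hfc.isCompact.measurableSet).mono' ?_
      (Eventually.of_forall fun x => ?_))).div_const c
  · exact ((measurable_gradient f).norm.pow_const 2).aestronglyMeasurable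
  · rw [Real.norm_eq_abs, abs_of_nonneg (sq_nonneg _)]
    by_cases hx : x ∈ tsupport f
    · rw [indicator_of_mem hx]
      exact pow_le_pow_left₀ (norm_nonneg _) (norm_gradient_le hf x) 2
    · rw [indicator_of_notMem hx, gradient_zero_off_tsupport hx, norm_zero]; simp

lemma eq_zero_of_energy_zero {f : E d → ℝ} {Lf : ℝ≥0} (hf : LipschitzWith Lf f)
    (hfc : HasCompactSupport f) {c : ℝ} (hc : 0 < c) (h : ∫ x, ‖∇ f x‖ ^ 2 / c ≤ 0)
    {p : E d} (hp : f p = 0) (x : E d) : f x = 0 := by
  have h0 := (integral_eq_zero_iff_of_nonneg (fun x => by positivity)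
    (integrable_normSq_gradient hf hfc c)).1
    (le_antisymm h (integral_nonneg fun x => by positivity))
  refine (eq_of_gradient_ae_zero hf ?_ x p).trans hp
  filter_upwards [h0] with y hy
  simpa [hc.ne'] using hy

lemma hasCompactSupport_of_zero_off {D : Set (E d)} (hD : Bornology.IsBounded D) {f : E d → ℝ}
    (h : ∀ x, x ∉ D → f x = 0) : HasCompactSupport f :=
  HasCompactSupport.intro hD.isCompact_closure fun x hx => h x fun hx' => hx (subset_closure hx')

/-- A minimiser stays below every affine function that is above the data on the frontier. -/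
theorem IsMin.le_plane {ε : ℝ} (hε : 0 < ε) {P : Conf d} {v : E d → ℝ} (hv : IsMin ε P v)
    {k : E d} {c : ℝ} (hk : ‖k‖ ≤ P.K) (hfr : ∀ z ∈ frontier P.D, P.G z ≤ ⟪k, z⟫ + c)
    {x : E d} (hx : x ∈ closure P.D) : v x ≤ ⟪k, x⟫ + c := by
  classical
  set l : E d → ℝ := fun y => ⟪k, y⟫ + c with hldef
  have hl : LipschitzWith P.K l := LipschitzWith.of_dist_le_mul fun a b => by
    rw [Real.dist_eq, dist_eq_norm]
    simp only [hldef, add_sub_add_right_eq_sub, ← inner_sub_right]
    exact (abs_real_inner_le_norm _ _).trans (mul_le_mul_of_nonneg_right hk (norm_nonneg _))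
  have hout : ∀ y, y ∉ P.D → v y = P.G y := hv.1.2
  have hfrD : ∀ y ∈ frontier P.D, y ∉ P.D := fun y hy h => by
    rw [P.isOpen.frontier_eq] at hy; exact hy.2 h
  set z := P.D.piecewise (fun y => min (v y) (l y)) v
  have hzK : LipschitzWith P.K z := by
    refine lipschitzWith_glue (by simpa using (hv.1.1.min hl).lipschitzOnWith) hv.1.1 fun y hy => ?_
    rw [min_eq_left]
    rw [hout y (hfrD y hy)]
    exact hfr y hy
  have hz : Cls P.D P.G P.K z := ⟨hzK, fun y hy => by simp [z, hy, hout y hy]⟩
  set f : E d → ℝ := fun y => v y - z y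
  have hfK : LipschitzWith (P.K + P.K) f := hv.1.1.sub hzK
  have hfc : HasCompactSupport f :=
    hasCompactSupport_of_zero_off P.bdd fun y hy => by simp [f, z, hy]
  have hf0 : ∀ y, 0 ≤ f y := fun y => by
    by_cases hy : y ∈ P.D <;> simp [f, z, hy]
  obtain ⟨hIi, hI0⟩ := integral_inner_gradient_eq_zero hfK hfc (dPhi ε k)
  have hI2 := integrable_normSq_gradient hfK hfc (2 * ε)
  have hpt : ∀ᵐ y, Phi ε (∇ z y) + ⟪dPhi ε k, ∇ f y⟫ + ‖∇ f y‖ ^ 2 / (2 * ε)
      ≤ Phi ε (∇ v y) := by
    filter_upwards [hv.1.1.ae_differentiableAt (μ := volume),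
      hzK.ae_differentiableAt (μ := volume)] with y a b
    have hg : ∇ f y = ∇ v y - ∇ z y := by
      have := (a.hasFDerivAt.sub b.hasFDerivAt).fderiv
      change fderiv ℝ f y = _ at this
      simp [gradient, this]
    rcases eq_or_lt_of_le (hf0 y) with h | h
    · have h0 := gradient_eq_zero_of_min hf0 h.symm
      rw [h0] at hg
      simp [h0, sub_eq_zero.1 hg.symm]
    · have hyD : y ∈ P.D := by
        by_contra hy; simp [f, z, hy] at h
      have hlt : l y < v y := by
        by_contra hc'
        rw [not_lt] at hc'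
        simp [f, z, hyD, min_eq_left hc'] at h
      have hev : z =ᶠ[𝓝 y] l := by
        filter_upwards [P.isOpen.mem_nhds hyD,
          (isOpen_lt hl.continuous hv.1.1.continuous).mem_nhds hlt] with w hw hw'
        have hw'' : l w ≤ v w := le_of_lt hw'
        simp [z, hw, min_eq_right hw'']
      have hgz : ∇ z y = k := by
        rw [gradient_congr hev]
        have : fderiv ℝ l y = InnerProductSpace.toDual ℝ (E d) k :=
          (((InnerProductSpace.toDual ℝ (E d) k).hasFDerivAt).add_const c).fderiv
        simp [gradient, this]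
      rw [hg, hgz]
      exact Phi_plane hε k (∇ v y)
  have hint : energy ε z + ∫ y, ‖∇ f y‖ ^ 2 / (2 * ε) ≤ energy ε v := by
    have := integral_mono_ae (((P.integrable_phi hε hz).add hIi).add hI2)
      (P.integrable_phi hε hv.1) hpt
    simp only [Pi.add_apply] at this
    rw [integral_add (f := fun y => Phi ε (∇ z y) + ⟪dPhi ε k, ∇ f y⟫)
      ((P.integrable_phi hε hz).add hIi) hI2,
      integral_add (P.integrable_phi hε hz) hIi, hI0, add_zero] at this
    exact this
  have hzero := eq_zero_of_energy_zero hfK hfc (by positivity) (c := 2 * ε)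
    (by linarith [hv.2 z hz]) (p := P.far) (by simp [f, z, P.far_notMem])
  have hclosed : IsClosed {y | v y ≤ l y} := isClosed_le hv.1.1.continuous hl.continuous
  have hsub : P.D ⊆ {y | v y ≤ l y} := fun y hy => by
    have := hzero y
    simp [f, z, hy, sub_eq_zero] at this
    exact this
  exact (hclosed.closure_subset_iff.2 hsub) hx

/-- Translation comparison. -/
theorem IsMin.chord {ε : ℝ} (hε : 0 < ε) {P : Conf d} {v : E d → ℝ} (hv : IsMin ε P v)
    {h : E d} {c : ℝ}
    (hb : ∀ x ∈ closure P.D, x + h ∈ closure P.D → (x ∈ frontier P.D ∨ x + h ∈ frontier P.D) →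
      v (x + h) - v x ≤ c)
    {x : E d} (hx : x ∈ closure P.D) (hxh : x + h ∈ closure P.D) : v (x + h) - v x ≤ c := by
  classical
  by_cases hint : ¬(x ∈ P.D ∧ x + h ∈ P.D)
  · refine hb x hx hxh ?_
    rw [P.isOpen.frontier_eq]
    by_cases h1 : x ∈ P.D
    · exact Or.inr ⟨hxh, fun h2 => hint ⟨h1, h2⟩⟩
    · exact Or.inl ⟨hx, h1⟩
  rw [not_not] at hint
  set U : Set (E d) := P.D ∩ (fun y => y + h) ⁻¹' P.D with hU
  have hUo : IsOpen U := P.isOpen.inter (P.isOpen.preimage (continuous_add_const h))
  set w : E d → ℝ := fun y => v (y + h) - c with hw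
  have hwK : LipschitzWith P.K w := LipschitzWith.of_dist_le_mul fun a b => by
    simpa [hw, dist_add_right] using hv.1.1.dist_le_mul (a + h) (b + h)
  have hfrU : ∀ y ∈ frontier U, w y ≤ v y := by
    intro y hy
    rw [hUo.frontier_eq] at hy
    obtain ⟨hcl, hnot⟩ := hy
    have h1 : y ∈ closure P.D := closure_mono inter_subset_left hcl
    have h2 : y + h ∈ closure P.D :=
      map_mem_closure (f := fun p => p + h) (continuous_add_const h) hcl fun z hz => hz.2
    have h3 : y ∈ frontier P.D ∨ y + h ∈ frontier P.D := by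
      rw [P.isOpen.frontier_eq]
      by_cases h4 : y ∈ P.D
      · exact Or.inr ⟨h2, fun h5 => hnot ⟨h4, h5⟩⟩
      · exact Or.inl ⟨h1, h4⟩
    simp only [hw]
    linarith [hb y h1 h2 h3]
  set z1 := U.piecewise (fun y => max (v y) (w y)) v with hz1
  set q := U.piecewise (fun y => min (v y) (w y)) w with hq
  have hz1K : LipschitzWith P.K z1 := lipschitzWith_glue
    (by simpa using (hv.1.1.max hwK).lipschitzOnWith) hv.1.1 fun y hy => max_eq_left (hfrU y hy)
  have hqK : LipschitzWith P.K q := lipschitzWith_glue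
    (by simpa using (hv.1.1.min hwK).lipschitzOnWith) hwK fun y hy => min_eq_right (hfrU y hy)
  have hz1c : Cls P.D P.G P.K z1 :=
    ⟨hz1K, fun y hy => by
      have : y ∉ U := fun h' => hy h'.1
      simp [hz1, this, hv.1.2 y hy]⟩
  set z2 : E d → ℝ := fun y => q (y - h) + c with hz2
  have hz2c : Cls P.D P.G P.K z2 := by
    refine ⟨LipschitzWith.of_dist_le_mul fun a b => ?_, fun y hy => ?_⟩
    · simpa [hz2, dist_sub_right] using hqK.dist_le_mul (a - h) (b - h)
    · have : y - h ∉ U := fun h' => hy (by simpa using h'.2)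
      simp [hz2, hq, this, hw, hv.1.2 y hy]
  set f : E d → ℝ := fun y => z1 y - v y with hf
  have hfK : LipschitzWith (P.K + P.K) f := hz1K.sub hv.1.1
  have hfc : HasCompactSupport f := hasCompactSupport_of_zero_off P.bdd fun y hy => by
    have : y ∉ U := fun h' => hy h'.1
    simp [hf, hz1, this]
  have hf0 : ∀ y, 0 ≤ f y := fun y => by
    by_cases hy : y ∈ U <;> simp [hf, hz1, hy]
  have hqe : ∀ y, q y = w y - f y := fun y => by
    by_cases hy : y ∈ U
    · simp only [hf, hz1, hq, piecewise_eq_of_mem _ _ _ hy]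
      linarith [min_add_max (v y) (w y)]
    · simp [hf, hz1, hq, hy]
  have hqi : Integrable fun y => Phi ε (∇ q y) := by
    have := (P.integrable_phi hε hz2c).comp_add_right h
    simpa [hz2, gradient_comp_sub] using this
  have hwi : Integrable fun y => Phi ε (∇ w y) := by
    have := (P.integrable_phi hε hv.1).comp_add_right h
    have e : ∀ y, ∇ w y = ∇ v (y + h) := fun y => by
      simpa [hw, sub_eq_add_neg] using gradient_comp_sub v (-h) (-c) y
    simpa [e] using this
  have hEw : energy ε w = energy ε v := by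
    have := energy_shift ε v (-h) (-c)
    simpa [hw, sub_eq_add_neg] using this
  have hEq : energy ε q = energy ε z2 := (energy_shift ε q h c).symm
  have hpt : ∀ᵐ y, Phi ε (∇ z1 y) + Phi ε (∇ q y) = Phi ε (∇ v y) + Phi ε (∇ w y) := by
    filter_upwards [hv.1.1.ae_differentiableAt (μ := volume),
      hwK.ae_differentiableAt (μ := volume), hfK.ae_differentiableAt (μ := volume)] with y a b e
    rcases eq_or_lt_of_le (hf0 y) with h0 | h0
    · have g0 := gradient_eq_zero_of_min hf0 h0.symm
      have e1 : z1 = fun p => v p + f p := by funext p; simp [hf]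
      have e2 : q = fun p => w p - f p := funext hqe
      have d1 : fderiv ℝ z1 y = fderiv ℝ v y + fderiv ℝ f y := by
        rw [e1]; exact (a.hasFDerivAt.add e.hasFDerivAt).fderiv
      have d2 : fderiv ℝ q y = fderiv ℝ w y - fderiv ℝ f y := by
        rw [e2]; exact (b.hasFDerivAt.sub e.hasFDerivAt).fderiv
      simp only [gradient] at g0
      simp [gradient, d1, d2, g0]
    · have hyU : y ∈ U := by
        by_contra hy; simp [hf, hz1, hy] at h0
      have hlt : v y < w y := by
        by_contra hc'
        rw [not_lt] at hc'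
        simp [hf, hz1, hyU, max_eq_left hc'] at h0
      have hev : ∀ᶠ p in 𝓝 y, p ∈ U ∧ v p < w p :=
        Filter.inter_mem (hUo.mem_nhds hyU)
          ((isOpen_lt hv.1.1.continuous hwK.continuous).mem_nhds hlt)
      have d1 : z1 =ᶠ[𝓝 y] w := hev.mono fun p hp => by simp [hz1, hp.1, max_eq_right hp.2.le]
      have d2 : q =ᶠ[𝓝 y] v := hev.mono fun p hp => by simp [hq, hp.1, min_eq_left hp.2.le]
      rw [gradient_congr d1, gradient_congr d2, add_comm]
  have hsum : energy ε z1 + energy ε q = energy ε v + energy ε w := by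
    simp only [energy]
    rw [← integral_add (P.integrable_phi hε hz1c) hqi, ← integral_add (P.integrable_phi hε hv.1) hwi]
    exact integral_congr_ae hpt
  have hE1 : energy ε z1 ≤ energy ε v := by linarith [hv.2 z2 hz2c]
  set m : E d → ℝ := fun y => (v y + z1 y) / 2 with hm
  have hmK : LipschitzWith P.K m := LipschitzWith.of_dist_le_mul fun a b => by
    have h1 := hv.1.1.dist_le_mul a b
    have h2 := hz1K.dist_le_mul a b
    rw [Real.dist_eq, abs_le] at h1 h2 ⊢
    constructor <;> simp only [hm] <;> linarith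
  have hmc : Cls P.D P.G P.K m := ⟨hmK, fun y hy => by
    simp only [hm, hv.1.2 y hy, hz1c.2 y hy]; ring⟩
  have hpt2 : ∀ᵐ y, (Phi ε (∇ m y) + Phi ε (∇ m y)) + ‖∇ f y‖ ^ 2 / (4 * ε)
      ≤ Phi ε (∇ v y) + Phi ε (∇ z1 y) := by
    filter_upwards [hv.1.1.ae_differentiableAt (μ := volume),
      hz1K.ae_differentiableAt (μ := volume)] with y a b
    have hg : ∇ m y = (1 / 2 : ℝ) • (∇ v y + ∇ z1 y) := by
      have h1 := (a.hasFDerivAt.add b.hasFDerivAt).const_mul (1 / 2 : ℝ)
      have e : (fun p => 1 / 2 * ((v + z1) p)) = m := by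
        funext p; simp only [hm, Pi.add_apply]; ring
      rw [e] at h1
      simp [gradient, h1.fderiv]
    have hgf : ∇ f y = ∇ z1 y - ∇ v y := by
      have := (b.hasFDerivAt.sub a.hasFDerivAt).fderiv
      change fderiv ℝ f y = _ at this
      simp [gradient, this]
    have h1 := Phi_midpoint hε (∇ v y) (∇ z1 y)
    rw [norm_sub_rev, ← hgf] at h1
    have h3 : ‖∇ f y‖ ^ 2 / (4 * ε) = 2 * (‖∇ f y‖ ^ 2 / (8 * ε)) := by field_simp; ring
    rw [hg]
    linarith
  have hI4 := integrable_normSq_gradient hfK hfc (4 * ε)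
  have hint2 : (energy ε m + energy ε m) + ∫ y, ‖∇ f y‖ ^ 2 / (4 * ε)
      ≤ energy ε v + energy ε z1 := by
    have hmi := P.integrable_phi hε hmc
    have := integral_mono_ae ((hmi.add hmi).add hI4)
      ((P.integrable_phi hε hv.1).add (P.integrable_phi hε hz1c)) hpt2
    simp only [Pi.add_apply] at this
    rw [integral_add (f := fun y => Phi ε (∇ m y) + Phi ε (∇ m y)) (hmi.add hmi) hI4,
      integral_add hmi hmi,
      integral_add (P.integrable_phi hε hv.1) (P.integrable_phi hε hz1c)] at this
    exact this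
  have hzero := eq_zero_of_energy_zero hfK hfc (c := 4 * ε) (by positivity)
    (by linarith [hv.2 m hmc]) (p := P.far) (by
      have : P.far ∉ U := fun h' => P.far_notMem h'.1
      simp [hf, hz1, this]) x
  have hxU : x ∈ U := hint
  simp [hf, hz1, hxU, sub_eq_zero, hw] at hzero
  linarith

end Vale.Agent.P080.C1.Approx
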