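import Vale.Agent.P080.Cone
import Mathlib.Topology.Order.Compact
import Mathlib.Topology.MetricSpace.ProperSpace
import Mathlib.Topology.MetricSpace.HausdorffDistance
import Mathlib.Analysis.Normed.Affine.Convex

/-!
# Comparison principle for infinity-harmonic functions (Armstrong-Smart)
-/

namespace Vale.Agent.P080.C1.Approx

open scoped Topology RealInnerProductSpace
open Set Filter Metric Vale.Agent.P080

variable {d : ℕ}

/-- maximum of `w` over the closed ball of radius `r` around `z` -/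
noncomputable def ballSup (w : E d → ℝ) (r : ℝ) (z : E d) : ℝ :=
  sSup ((fun h => w (z + h)) '' closedBall 0 r)

lemma continuous_ballSup {w : E d → ℝ} (hw : Continuous w) (r : ℝ) :
    Continuous (ballSup w r) :=
  (isCompact_closedBall (0 : E d) r).continuous_sSup (f := fun z h => w (z + h))
    (hw.comp (continuous_fst.add continuous_snd))

lemma le_ballSup {w : E d → ℝ} (hw : Continuous w) {r : ℝ} {z y : E d}
    (hy : ‖y - z‖ ≤ r) : w y ≤ ballSup w r z := by
  refine le_csSup ((isCompact_closedBall (0 : E d) r).image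
    (hw.comp (continuous_const.add continuous_id))).bddAbove ⟨y - z, ?_, ?_⟩
  · rwa [mem_closedBall, dist_zero_right]
  · simp

lemma exists_ballSup {w : E d → ℝ} (hw : Continuous w) {r : ℝ} (hr : 0 ≤ r) (z : E d) :
    ∃ y, ‖y - z‖ ≤ r ∧ ballSup w r z = w y := by
  obtain ⟨h, hh, he⟩ := (isCompact_closedBall (0 : E d) r).exists_sSup_image_eq
    ⟨0, mem_closedBall_self hr⟩ (hw.comp (continuous_const.add continuous_id)).continuousOn
  refine ⟨z + h, ?_, he⟩
  rw [mem_closedBall, dist_zero_right] at hh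
  simpa using hh

/-- The ball maxima of a subsolution satisfy the discrete convexity inequality. -/
lemma ballSup_two {w : E d → ℝ} {U : Set (E d)} (hw : IsSub w U) (hc : Continuous w)
    {z : E d} {r : ℝ} (hr : 0 < r) (hU : closedBall z (2 * r) ⊆ U) :
    ∃ y₁, ‖y₁ - z‖ ≤ r ∧
      ∀ y, ‖y - z‖ ≤ r → 2 * ballSup w r z ≤ ballSup w r y₁ + ballSup w r y := by
  obtain ⟨z2, hz2, hmax⟩ := (isCompact_closedBall z (2 * r)).exists_isMaxOn
    ⟨z, mem_closedBall_self (by linarith)⟩ hc.continuousOn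
  rw [mem_closedBall, dist_eq_norm] at hz2
  have hk : 0 ≤ (w z2 - w z) / (2 * r) :=
    div_nonneg (sub_nonneg.2 (hmax (mem_closedBall_self (by linarith)))) (by linarith)
  have hhalf : ‖(1 / 2 : ℝ) • (z2 - z)‖ ≤ r := by
    rw [norm_smul, Real.norm_eq_abs, abs_of_pos (by norm_num : (0 : ℝ) < 1 / 2)]
    linarith
  refine ⟨z + (1 / 2 : ℝ) • (z2 - z), by simpa using hhalf, fun y hy => ?_⟩
  have h1 : w z2 ≤ ballSup w r (z + (1 / 2 : ℝ) • (z2 - z)) := by
    refine le_ballSup hc ?_
    have : z2 - (z + (1 / 2 : ℝ) • (z2 - z)) = (1 / 2 : ℝ) • (z2 - z) := by module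
    rwa [this]
  have h2 : w z ≤ ballSup w r y := le_ballSup hc (by rwa [norm_sub_rev])
  obtain ⟨y0, hy0, he⟩ := exists_ballSup hc hr.le z
  have h3 := hw.cone (x := z) (ρ := 2 * r) (by linarith) hk hU (fun s hs => ?_) (y := y0)
    (by linarith)
  · have h4 : (w z2 - w z) / (2 * r) * ‖y0 - z‖ ≤ (w z2 - w z) / (2 * r) * r :=
      mul_le_mul_of_nonneg_left hy0 hk
    have h5 : (w z2 - w z) / (2 * r) * r = (w z2 - w z) / 2 := by field_simp
    rw [he]
    linarith
  · have h5 : (w z2 - w z) / (2 * r) * (2 * r) = w z2 - w z := by field_simp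
    have h6 : w s ≤ w z2 := hmax (by rw [mem_closedBall, dist_eq_norm, hs])
    linarith

/-- A subsolution below a supersolution on the frontier of a bounded open set stays below it. -/
theorem comparison {n : ℕ} {u v : E (n + 1) → ℝ} {D : Set (E (n + 1))} (hD : IsOpen D)
    (hDb : Bornology.IsBounded D) (hu : IsSub u D) (hv : IsSub (fun y => -v y) D)
    (huc : Continuous u) (hvc : Continuous v) (hbd : ∀ y ∈ frontier D, u y ≤ v y)
    {x : E (n + 1)} (hx : x ∈ closure D) : u x ≤ v x := by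
  by_cases hxD : x ∈ D
  swap
  · exact hbd x (by rw [hD.frontier_eq]; exact ⟨hx, hxD⟩)
  refine le_of_forall_pos_le_add fun ε hε => ?_
  obtain ⟨R, hR⟩ := hDb.isCompact_closure.isBounded.subset_closedBall x
  have hne : (Dᶜ).Nonempty := by
    refine ⟨x + (|R| + 1) • EuclideanSpace.single 0 1, fun h => ?_⟩
    have := hR (subset_closure h)
    rw [mem_closedBall, dist_eq_norm, add_sub_cancel_left, norm_smul, PiLp.norm_single,
      norm_one, mul_one, Real.norm_eq_abs, abs_of_pos (by positivity)] at this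
    linarith [le_abs_self R]
  set ρ := fun y => infDist y Dᶜ with hρ
  have hρc : Continuous ρ := continuous_infDist_pt _
  have hρpos : ∀ y, 0 < ρ y → y ∈ D := fun y hy => by
    by_contra h
    simp only [hρ, infDist_zero_of_mem (show y ∈ Dᶜ from h), lt_irrefl] at hy
  have hρx : 0 < ρ x := (hD.isClosed_compl.notMem_iff_infDist_pos hne).1 (by simpa using hxD)
  have hK : IsCompact (closure D) := hDb.isCompact_closure
  obtain ⟨η₁, hη₁, hu'⟩ := Metric.uniformContinuousOn_iff.1
    (hK.uniformContinuousOn_of_continuous huc.continuousOn) (ε / 2) (by linarith)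
  obtain ⟨η₂, hη₂, hv'⟩ := Metric.uniformContinuousOn_iff.1
    (hK.uniformContinuousOn_of_continuous hvc.continuousOn) (ε / 2) (by linarith)
  obtain ⟨r, hr, hr1, hr2, hr3⟩ : ∃ r : ℝ, 0 < r ∧ 5 * r < η₁ ∧ 5 * r < η₂ ∧ 5 * r < ρ x := by
    refine ⟨min η₁ (min η₂ (ρ x)) / 6, ?_, ?_, ?_, ?_⟩
    · exact div_pos (lt_min hη₁ (lt_min hη₂ hρx)) (by norm_num)
    · linarith [min_le_left η₁ (min η₂ (ρ x))]
    · linarith [min_le_right η₁ (min η₂ (ρ x)), min_le_left η₂ (ρ x)]
    · linarith [min_le_right η₁ (min η₂ (ρ x)), min_le_right η₂ (ρ x)]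
  have hvc' : Continuous (fun y => -v y) := hvc.neg
  set a := ballSup u r with ha
  set b := ballSup (fun y => -v y) r with hb
  have hac : Continuous a := continuous_ballSup huc r
  have hbc : Continuous b := continuous_ballSup hvc' r
  set P := {y | 2 * r ≤ ρ y} with hP
  have hPD : P ⊆ D := fun y (hy : 2 * r ≤ ρ y) => hρpos y (by linarith)
  have hPc : IsCompact P := hK.of_isClosed_subset (isClosed_le continuous_const hρc)
    (hPD.trans subset_closure)
  have hxP : x ∈ P := show 2 * r ≤ ρ x by linarith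
  have hρle : ∀ y z, ρ y ≤ ρ z + ‖y - z‖ := fun y z => by
    simpa [hρ, dist_eq_norm] using (infDist_le_infDist_add_dist (s := Dᶜ) (x := y) (y := z))
  obtain ⟨zM, hzM, hM⟩ := hPc.exists_isMaxOn (f := fun z => a z + b z) ⟨x, hxP⟩
    (hac.add hbc).continuousOn
  set M := a zM + b zM with hMdef
  have hMx : u x - v x ≤ M := by
    have h1 : u x ≤ a x := le_ballSup huc (by simpa using hr.le)
    have h2 : -v x ≤ b x := le_ballSup hvc' (y := x) (by simpa using hr.le)
    have h3 : a x + b x ≤ a zM + b zM := hM hxP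
    linarith
  obtain ⟨z, hz, hzE, hzfar⟩ : ∃ z ∈ P, a z + b z = M ∧ ρ z < 3 * r := by
    by_contra hcon
    simp only [not_exists, not_and, not_lt] at hcon
    have hEc : IsCompact (P ∩ {z | a z + b z = M}) :=
      hPc.inter_right (isClosed_eq (hac.add hbc) continuous_const)
    obtain ⟨zA, hzA, hA⟩ := hEc.exists_isMaxOn ⟨zM, hzM, rfl⟩ hac.continuousOn
    have hFc : IsCompact ((P ∩ {z | a z + b z = M}) ∩ {z | a z = a zA}) :=
      hEc.inter_right (isClosed_eq hac continuous_const)
    obtain ⟨z, ⟨⟨hzD, hzE⟩, hzF⟩, hfar⟩ := hFc.exists_isMaxOn ⟨zA, hzA, rfl⟩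
      (f := fun z => ‖z - x‖) (continuous_id.sub continuous_const).norm.continuousOn
    simp only [mem_ofPred_eq] at hzE hzF
    have hzin := hcon z hzD hzE
    have hsub : closedBall z (2 * r) ⊆ D := fun y hy => by
      rw [mem_closedBall, dist_eq_norm] at hy
      exact hρpos y (by linarith [hρle z y, norm_sub_rev z y])
    obtain ⟨y₁, hy₁, h1⟩ := ballSup_two hu huc hr hsub
    obtain ⟨y₂, hy₂, h2⟩ := ballSup_two hv hvc' hr hsub
    rw [← ha] at h1
    rw [← hb] at h2
    have inD : ∀ y, ‖y - z‖ ≤ r → y ∈ P := fun y hy =>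
      show 2 * r ≤ ρ y by linarith [hρle z y, norm_sub_rev z y]
    have hle : ∀ y, ‖y - z‖ ≤ r → a y + b y ≤ M := fun y hy => hM (inD y hy)
    have e1 := hle y₁ hy₁
    have e2 := hle y₂ hy₂
    have g1 := h1 y₂ hy₂
    have g2 := h2 y₁ hy₁
    have q1 : a y₁ ≤ a z := by
      rw [hzF]; exact hA ⟨inD _ hy₁, (by simp only [mem_ofPred_eq]; linarith)⟩
    have q2 : a y₂ ≤ a z := by
      rw [hzF]; exact hA ⟨inD _ hy₂, (by simp only [mem_ofPred_eq]; linarith)⟩
    obtain ⟨e, he, hfarther⟩ : ∃ e : E (n + 1), ‖e‖ = r ∧ ‖z - x‖ < ‖z + e - x‖ := by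
      rcases eq_or_ne z x with rfl | hne'
      · exact ⟨r • EuclideanSpace.single 0 (1 : ℝ), by simp [norm_smul, abs_of_pos hr],
          by simp [norm_smul, abs_of_pos hr, hr]⟩
      · have hp : 0 < ‖z - x‖ := norm_pos_iff.2 (sub_ne_zero.2 hne')
        refine ⟨(r / ‖z - x‖) • (z - x), ?_, ?_⟩
        · rw [norm_smul, Real.norm_eq_abs, abs_of_pos (div_pos hr hp)]; field_simp
        · have : z + (r / ‖z - x‖) • (z - x) - x = (1 + r / ‖z - x‖) • (z - x) := by module
          rw [this, norm_smul, Real.norm_eq_abs, abs_of_pos (by positivity)]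
          nlinarith [div_pos hr hp]
    have hy : ‖z + e - z‖ ≤ r := by simp [he]
    have g3 := h1 _ hy
    have g4 := h2 _ hy
    have e3 := hle _ hy
    have hmem : z + e ∈ (P ∩ {z | a z + b z = M}) ∩ {z | a z = a zA} := by
      refine ⟨⟨inD _ hy, ?_⟩, ?_⟩ <;> simp only [mem_ofPred_eq] <;> linarith
    have : ‖z + e - x‖ ≤ ‖z - x‖ := hfar hmem
    linarith
  obtain ⟨y, hy, hye⟩ := exists_ballSup huc hr.le z
  obtain ⟨y', hy', hye'⟩ := exists_ballSup hvc' hr.le z
  rw [← ha] at hye
  rw [← hb] at hye'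
  -- a frontier point near `z`
  obtain ⟨s₀, hs₀, hds⟩ := hD.isClosed_compl.exists_infDist_eq_dist hne z
  obtain ⟨s, hs, hsd⟩ : ∃ s ∈ frontier D, dist z s ≤ ρ z := by
    obtain ⟨s, hs1, hs2⟩ : ((segment ℝ z s₀) ∩ frontier D).Nonempty := by
      by_contra hcon
      rw [not_nonempty_iff_eq_empty] at hcon
      have hsub : segment ℝ z s₀ ⊆ D ∪ (closure D)ᶜ := fun p hp => by
        by_cases h1 : p ∈ D
        · exact Or.inl h1
        · refine Or.inr fun h2 => ?_
          have : p ∈ segment ℝ z s₀ ∩ frontier D := ⟨hp, by rw [hD.frontier_eq]; exact ⟨h2, h1⟩⟩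
          rw [hcon] at this; exact this
      rcases (convex_segment z s₀).isPreconnected.subset_or_subset hD
        isClosed_closure.isOpen_compl (disjoint_compl_right.mono_left subset_closure) hsub
        with h1 | h1
      · exact hs₀ (h1 (right_mem_segment ℝ z s₀))
      · exact h1 (left_mem_segment ℝ z s₀) (subset_closure (hPD hz))
    refine ⟨s, hs2, ?_⟩
    have := dist_add_dist_of_mem_segment hs1
    simp only [hρ, hds]
    linarith [dist_nonneg (x := s) (y := s₀)]
  have hin : ∀ p, ‖p - z‖ ≤ r → p ∈ closure D := fun p hp => by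
    have h2 : 2 * r ≤ ρ z := hz
    exact subset_closure (hρpos p (by linarith [hρle z p, norm_sub_rev z p]))
  have hd : ∀ p, ‖p - z‖ ≤ r → dist p s ≤ 4 * r := fun p hp => by
    linarith [dist_triangle p z s, dist_eq_norm p z]
  have k1 := hu' y (hin y hy) s (frontier_subset_closure hs) (by linarith [hd y hy])
  have k2 := hv' y' (hin y' hy') s (frontier_subset_closure hs) (by linarith [hd y' hy'])
  rw [Real.dist_eq, abs_lt] at k1 k2
  linarith [hbd s hs]

end Vale.Agent.P080.C1.Approx
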