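import Vale.Agent.P080.C1.Approx.Euler
import Vale.Agent.P080.C1.Approx.Uniqueness
import Mathlib.Topology.TietzeExtension

/-!
# Minimisers converge to infinity-harmonic functions as `ε → 0`
-/

namespace Vale.Agent.P080.C1.Approx

open scoped ContDiff Topology RealInnerProductSpace NNReal ENNReal Gradient
open Set Filter Metric MeasureTheory Vale.Agent.P080

variable {d : ℕ}

lemma sum_mul_pd_eq_inner (a : E d) (f : E d → ℝ) (x : E d) :
    ⟪a, ∇ f x⟫ = ∑ j, a j * pd j f x := by
  rw [real_inner_comm, inner_gradient, fderiv_apply_eq_sum]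

lemma gradient_apply (f : E d → ℝ) (x : E d) (i : Fin d) : (∇ f x) i = pd i f x := by
  rw [← inner_single (∇ f x) i, inner_gradient]; rfl

/-- the flux of the exponential energy -/
noncomputable def flux (ε : ℝ) (ψ : E d → ℝ) (i : Fin d) (x : E d) : ℝ :=
  Real.exp ((∑ j, pd j ψ x * pd j ψ x) / (2 * ε)) / ε * pd i ψ x

lemma dPhi_gradient (ε : ℝ) (ψ : E d → ℝ) (x : E d) (i : Fin d) :
    (dPhi ε (∇ ψ x)) i = flux ε ψ i x := by
  simp only [dPhi, flux, PiLp.smul_apply, smul_eq_mul, gradient_apply, ← sum_sq (∇ ψ x)]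

lemma contDiff_flux (ε : ℝ) {ψ : E d → ℝ} (hψ : ContDiff ℝ 2 ψ) (i : Fin d) :
    ContDiff ℝ 1 (flux ε ψ i) :=
  (((ContDiff.sum fun j _ => (differentiable_pd hψ j).mul (differentiable_pd hψ j)).div_const
    _).exp.div_const ε).mul (differentiable_pd hψ i)

lemma sum_pd_flux {ε : ℝ} (hε : ε ≠ 0) {ψ : E d → ℝ} (hψ : ContDiff ℝ 2 ψ) (x : E d) :
    ∑ i, pd i (flux ε ψ i) x
      = Real.exp ((∑ j, pd j ψ x * pd j ψ x) / (2 * ε)) / ε ^ 2
        * (ε * ∑ i, pd i (pd i ψ) x + infLap ψ x) := by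
  have hd : ∀ j, HasFDerivAt (pd j ψ) (fderiv ℝ (pd j ψ) x) x := fun j =>
    (((differentiable_pd hψ j).differentiable (by norm_num)) x).hasFDerivAt
  have hS : HasFDerivAt (fun y => ∑ j, pd j ψ y * pd j ψ y)
      (∑ j, (pd j ψ x • fderiv ℝ (pd j ψ) x + pd j ψ x • fderiv ℝ (pd j ψ) x)) x :=
    HasFDerivAt.fun_sum fun j _ => (hd j).mul (hd j)
  have hterm : ∀ i, pd i (flux ε ψ i) x
      = Real.exp ((∑ j, pd j ψ x * pd j ψ x) / (2 * ε)) / ε
        * (pd i (pd i ψ) x + pd i ψ x * (1 / ε) * ∑ j, pd j ψ x * pd i (pd j ψ) x) := by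
    intro i
    have h : fderiv ℝ (flux ε ψ i) x = _ :=
      (((hS.mul_const (2 * ε)⁻¹).exp.mul_const ε⁻¹).mul (hd i)).fderiv
    rw [pd, h]
    simp only [add_apply, smul_apply, sum_apply, smul_eq_mul, div_eq_mul_inv,
      Finset.sum_add_distrib]
    simp only [pd]
    field_simp
    ring
  simp only [hterm, infLap]
  rw [← Finset.mul_sum, Finset.sum_add_distrib]
  simp only [mul_add, Finset.mul_sum]
  congr 1
  · exact Finset.sum_congr rfl fun i _ => by field_simp
  · exact Finset.sum_congr rfl fun i _ => Finset.sum_congr rfl fun j _ => by field_simp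

lemma continuous_pd2 {ψ : E d → ℝ} (hψ : ContDiff ℝ 2 ψ) (i j : Fin d) :
    Continuous (pd i (pd j ψ)) := by
  unfold pd
  exact ((differentiable_pd hψ j).continuous_fderiv (by norm_num)).clm_apply continuous_const

lemma continuous_infLap {ψ : E d → ℝ} (hψ : ContDiff ℝ 2 ψ) : Continuous (infLap ψ) :=
  continuous_finsetSum _ fun i _ => continuous_finsetSum _ fun j _ =>
    ((differentiable_pd hψ i).continuous.mul (differentiable_pd hψ j).continuous).mul
      (continuous_pd2 hψ i j)

/-- adding a small quadratic -/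
lemma infLap_add_sq {φ : E d → ℝ} (hφ : ContDiff ℝ 2 φ) (γ : ℝ) (z : E d) :
    infLap (fun y => φ y + γ * ‖y - z‖ ^ 2) z
      = infLap φ z + 2 * γ * ∑ i, pd i φ z * pd i φ z := by
  have h1 : ∀ (j : Fin d) (y : E d),
      pd j (fun y => φ y + γ * ‖y - z‖ ^ 2) y = pd j φ y + 2 * γ * (y - z) j := by
    intro j y
    have h : fderiv ℝ (fun y => φ y + γ * ‖y - z‖ ^ 2) y = _ :=
      (((hφ.differentiable (by norm_num)) y).hasFDerivAt.add
        ((hasFDerivAt_normSq z y).const_mul γ)).fderiv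
    rw [pd, h]
    simp [pd, inner_single]
    ring
  have h2 : ∀ i j : Fin d, pd i (pd j (fun y => φ y + γ * ‖y - z‖ ^ 2)) z
      = pd i (pd j φ) z + 2 * γ * (if i = j then 1 else 0) := by
    intro i j
    have e : pd j (fun y => φ y + γ * ‖y - z‖ ^ 2) = fun y => pd j φ y + 2 * γ * (y - z) j :=
      funext (h1 j)
    have hb : HasFDerivAt (fun y : E d => 2 * γ * (y - z) j)
        ((2 * γ) • EuclideanSpace.proj (𝕜 := ℝ) j) z := by
      have := ((EuclideanSpace.proj (𝕜 := ℝ) j).hasFDerivAt.comp z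
        ((hasFDerivAt_id z).sub_const z)).const_mul (2 * γ)
      simpa using this
    have h : fderiv ℝ (fun y => pd j φ y + 2 * γ * (y - z) j) z = _ :=
      ((((differentiable_pd hφ j).differentiable (by norm_num)) z).hasFDerivAt.add hb).fderiv
    rw [e, pd, h]
    by_cases hij : i = j
    · subst hij; simp [pd]
    · simp [pd, hij, Ne.symm hij]
  simp only [infLap, h2, h1, sub_self, PiLp.zero_apply, mul_zero, add_zero]
  simp only [mul_add, Finset.sum_add_distrib, mul_ite, mul_one, mul_zero, Finset.sum_ite_eq,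
    Finset.mem_univ, if_true]
  congr 1
  rw [Finset.mul_sum]
  exact Finset.sum_congr rfl fun i _ => by ring

/-- pointwise convergence of equi-Lipschitz functions is uniform on compact sets -/
lemma tendsto_uniform {K : ℝ≥0} {v : ℕ → E d → ℝ} {w : E d → ℝ} (hv : ∀ n, LipschitzWith K (v n))
    (hw : LipschitzWith K w) (hlim : ∀ x, Tendsto (fun n => v n x) atTop (𝓝 (w x)))
    {S : Set (E d)} (hS : IsCompact S) {η : ℝ} (hη : 0 < η) :
    ∀ᶠ n in atTop, ∀ x ∈ S, |v n x - w x| ≤ η := by
  obtain ⟨r, hr, hr'⟩ : ∃ r > 0, (K : ℝ) * r ≤ η / 3 :=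
    ⟨η / (3 * ((K : ℝ) + 1)), by positivity, by
      rw [← mul_div_assoc, div_le_div_iff₀ (by positivity) (by norm_num)]; nlinarith [K.2]⟩
  obtain ⟨t, -, htf, hcov⟩ := finite_cover_balls_of_compact hS hr
  have hev : ∀ᶠ n in atTop, ∀ c ∈ t, |v n c - w c| ≤ η / 3 := by
    rw [htf.eventually_all]
    intro c _
    exact ((Metric.tendsto_nhds.1 (hlim c)) (η / 3) (by linarith)).mono fun n hn => le_of_lt hn
  filter_upwards [hev] with n hn x hx
  obtain ⟨c, hc, hxc⟩ := mem_iUnion₂.1 (hcov hx)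
  rw [mem_ball] at hxc
  have h1 := (hv n).dist_le_mul x c
  have h2 := hw.dist_le_mul c x
  rw [dist_comm c x] at h2
  have h3 : (K : ℝ) * dist x c ≤ K * r := mul_le_mul_of_nonneg_left hxc.le K.2
  simp only [Real.dist_eq] at h1 h2
  calc |v n x - w x| = |(v n x - v n c) + (v n c - w c) + (w c - w x)| := by ring_nf
    _ ≤ |v n x - v n c| + |v n c - w c| + |w c - w x| := abs_add_three _ _ _
    _ ≤ η := by linarith [hn c hc]

lemma isSub_congr {u w : E d → ℝ} {U : Set (E d)} (hU : IsOpen U) (hu : IsSub u U)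
    (h : ∀ x ∈ U, w x = u x) : IsSub w U :=
  ⟨hu.1.congr h, fun z hz φ hφ hmax => hu.2 z hz φ hφ (hmax.congr
    (by filter_upwards [hU.mem_nhds hz] with y hy using by rw [h y hy]))⟩

lemma isSub_add_const {u : E d → ℝ} {U : Set (E d)} (hu : IsSub u U) (c : ℝ) :
    IsSub (fun x => u x + c) U := by
  refine ⟨hu.1.add continuousOn_const, fun z hz φ hφ hmax => ?_⟩
  have h : infLap (fun y => φ y - c) z = infLap φ z := by
    have : ∀ j, pd j (fun y => φ y - c) = pd j φ := fun j => by
      funext y; simp only [pd, fderiv_sub_const]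
    simp only [infLap, this]
  rw [← h]
  refine hu.2 z hz _ (hφ.sub contDiff_const) ?_
  have e : (fun y => u y - (φ y - c)) = fun y => u y + c - φ y := by funext y; ring
  rwa [e]

/-- Limits of minimisers are subsolutions. -/
theorem isSub_limit {P : Conf d} {L : ℝ≥0} (hLK : L < P.K) {ε : ℕ → ℝ} (hε : ∀ n, 0 < ε n)
    (hε0 : Tendsto ε atTop (𝓝 0)) {v : ℕ → E d → ℝ} (hv : ∀ n, IsMin (ε n) P (v n))
    (hL : ∀ n, LipschitzWith L (v n)) {w : E d → ℝ} (hwL : LipschitzWith L w)
    (hlim : ∀ x, Tendsto (fun n => v n x) atTop (𝓝 (w x))) : IsSub w P.D := by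
  classical
  refine ⟨hwL.continuous.continuousOn, fun z hz φ hφ hmax => ?_⟩
  by_contra hneg
  rw [not_le] at hneg
  set G2 := ∑ i, pd i φ z * pd i φ z with hG2
  have hG2n : 0 ≤ G2 := Finset.sum_nonneg fun i _ => mul_self_nonneg _
  obtain ⟨γ, hγ, hγneg⟩ : ∃ γ > 0, infLap φ z + 2 * γ * G2 < 0 := by
    refine ⟨-infLap φ z / (4 * (G2 + 1)), div_pos (by linarith) (by linarith), ?_⟩
    have : 2 * (-infLap φ z / (4 * (G2 + 1))) * G2 ≤ -infLap φ z / 2 := by
      rw [mul_div_assoc', div_mul_eq_mul_div, div_le_div_iff₀ (by linarith) (by norm_num)]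
      nlinarith
    linarith
  set ψ : E d → ℝ := fun y => φ y + γ * ‖y - z‖ ^ 2 with hψdef
  have hψ : ContDiff ℝ 2 ψ :=
    hφ.add (contDiff_const.mul ((contDiff_id.sub contDiff_const).norm_sq ℝ))
  have hψz : infLap ψ z < 0 := by rw [hψdef, infLap_add_sq hφ]; exact hγneg
  set δ := -infLap ψ z / 2 with hδdef
  have hδ : 0 < δ := by linarith
  obtain ⟨r, hr, hball⟩ : ∃ r > 0, ∀ y ∈ closedBall z r,
      y ∈ P.D ∧ w y - φ y ≤ w z - φ z ∧ infLap ψ y ≤ -δ := by
    have h1 : ∀ᶠ y in 𝓝 z, y ∈ P.D ∧ w y - φ y ≤ w z - φ z ∧ infLap ψ y ≤ -δ :=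
      Filter.inter_mem (P.isOpen.mem_nhds hz) (Filter.inter_mem hmax
        (((continuous_infLap hψ).continuousAt.eventually (eventually_le_nhds (by linarith)))))
    obtain ⟨r, hr, hr'⟩ := Metric.eventually_nhds_iff.1 h1
    exact ⟨r / 2, by linarith, fun y hy => hr' (by rw [mem_closedBall] at hy; linarith)⟩
  obtain ⟨Λ, hΛ⟩ := (isCompact_closedBall z r).exists_bound_of_continuousOn
    (continuous_finsetSum _ fun i _ => continuous_pd2 hψ i i : Continuous fun y =>
      ∑ i, pd i (pd i ψ) y).continuousOn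
  have hev1 := tendsto_uniform hL hwL hlim (isCompact_closedBall z r) (η := γ * r ^ 2 / 8)
    (by positivity)
  have hev2 : ∀ᶠ n in atTop, ε n * (|Λ| + 1) < δ := by
    have := hε0.mul_const (|Λ| + 1)
    rw [zero_mul] at this
    exact this.eventually (eventually_lt_nhds hδ)
  obtain ⟨n, hn1, hn2⟩ := (hev1.and hev2).exists
  set k := v n z - ψ z - γ * r ^ 2 / 4 with hk
  obtain ⟨Kψ, hKψ⟩ := (hψ.of_le (show (1 : WithTop ℕ∞) ≤ 2 by norm_num)).contDiffOn
    |>.exists_lipschitzOnWith (n := 1) (by simp) (convex_closedBall z r) (isCompact_closedBall z r)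
  set g : E d → ℝ := fun y => max (v n y - ψ y - k) 0 with hg
  have hgL : LipschitzOnWith (L + Kψ) g (closedBall z r) := by
    refine LipschitzOnWith.of_dist_le_mul fun a ha b hb => ?_
    have h1 := (hL n).dist_le_mul a b
    have h2 := hKψ.dist_le_mul a ha b hb
    rw [Real.dist_eq] at h1 h2 ⊢
    refine (abs_max_sub_max_le_abs _ _ _).trans ?_
    calc |v n a - ψ a - k - (v n b - ψ b - k)| = |(v n a - v n b) - (ψ a - ψ b)| := by ring_nf
      _ ≤ |v n a - v n b| + |ψ a - ψ b| := abs_sub _ _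
      _ ≤ L * dist a b + Kψ * dist a b := add_le_add h1 h2
      _ = ((L + Kψ : ℝ≥0) : ℝ) * dist a b := by rw [NNReal.coe_add]; ring
  set f := (ball z r).piecewise g (fun _ => 0) with hf
  have hfL : LipschitzWith (L + Kψ) f := by
    refine lipschitzWith_glue (by rwa [closure_ball z hr.ne'])
      ((LipschitzWith.const (0 : ℝ)).weaken bot_le) fun y hy => ?_
    rw [frontier_ball z hr.ne', mem_sphere] at hy
    have hyB : y ∈ closedBall z r := mem_closedBall.2 hy.le
    have hb := hball y hyB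
    have hn := abs_le.1 (hn1 y hyB)
    have hnz := abs_le.1 (hn1 z (mem_closedBall_self hr.le))
    have e : ψ y = φ y + γ * r ^ 2 := by simp only [hψdef]; rw [← dist_eq_norm, hy]
    have ez : ψ z = φ z := by simp [hψdef]
    simp only [hg, hk, e, ez]
    rw [max_eq_right]
    linarith [hb.2.1, mul_pos hγ (pow_pos hr 2)]
  have hf0 : ∀ y, 0 ≤ f y := fun y => by by_cases hy : y ∈ ball z r <;> simp [hf, hg, hy]
  have hts : tsupport f ⊆ closedBall z r := by
    refine closure_minimal (fun y hy => ?_) isClosed_closedBall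
    by_contra h
    have hyb : y ∉ ball z r := fun h' => h (ball_subset_closedBall h')
    simp [hf, hyb] at hy
  have hfc : HasCompactSupport f :=
    (isCompact_closedBall z r).of_isClosed_subset (isClosed_tsupport f) hts
  have hEL := (hv n).euler (hε n) (hL n) hLK hfL hfc (hts.trans fun y hy => (hball y hy).1)
  -- the classical side
  have hFi : ∀ i, Integrable fun y => flux (ε n) ψ i y * pd i f y := fun i => by
    obtain ⟨C, hC⟩ := (isCompact_closedBall z r).exists_bound_of_continuousOn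
      (contDiff_flux (ε n) hψ i).continuous.continuousOn
    refine integrable_of_bound (C := C * (L + Kψ : ℝ≥0))
      (((contDiff_flux (ε n) hψ i).continuous.measurable.mul
        (measurable_fderiv_apply_const ℝ f _)).aestronglyMeasurable) (isCompact_closedBall z r)
      (fun y hy => ?_) fun y hy => ?_
    · rw [norm_mul]
      refine mul_le_mul (hC y hy) ((ContinuousLinearMap.le_opNorm _ _).trans ?_) (norm_nonneg _)
        ((norm_nonneg _).trans (hC y hy))
      rw [PiLp.norm_single, norm_one, mul_one]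
      exact norm_fderiv_le_of_lipschitz ℝ hfL
    · rw [pd, fderiv_of_notMem_tsupport ℝ fun h => hy (hts h)]; simp
  have hinner : ∀ y, ⟪dPhi (ε n) (∇ ψ y), ∇ f y⟫ = ∑ i, flux (ε n) ψ i y * pd i f y := fun y => by
    simp only [sum_mul_pd_eq_inner, dPhi_gradient]
  have hIc : Integrable fun y => ⟪dPhi (ε n) (∇ ψ y), ∇ f y⟫ := by
    simp only [hinner]; exact integrable_finsetSum _ fun i _ => hFi i
  have hle : ∫ y, ⟪dPhi (ε n) (∇ ψ y), ∇ f y⟫ ≤ 0 := by
    rw [← hEL]
    refine integral_mono_ae hIc (integrable_inner_dPhi (ε n) (hL n) hfL hfc) ?_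
    filter_upwards [(hL n).ae_differentiableAt (μ := volume)] with y a
    rcases eq_or_lt_of_le (hf0 y) with h0 | h0
    · rw [gradient_eq_zero_of_min hf0 h0.symm, inner_zero_right, inner_zero_right]
    · have hyb : y ∈ ball z r := by
        by_contra h; simp [hf, h] at h0
      have hpos : k < v n y - ψ y := by
        by_contra h
        rw [not_lt] at h
        simp [hf, hg, hyb, sub_nonpos.2 h] at h0
      have hcont : Continuous fun p => v n p - ψ p := (hL n).continuous.sub hψ.continuous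
      have hev : f =ᶠ[𝓝 y] fun p => v n p - ψ p - k := by
        filter_upwards [isOpen_ball.mem_nhds hyb,
          (isOpen_lt continuous_const hcont).mem_nhds hpos] with p hp hp'
        have hp'' : k < v n p - ψ p := hp'
        simp only [hf, piecewise_eq_of_mem _ _ _ hp, hg]
        exact max_eq_left (by linarith)
      have hgr : ∇ f y = ∇ (v n) y - ∇ ψ y := by
        rw [gradient_congr hev]
        have := ((a.hasFDerivAt.sub ((hψ.differentiable (by norm_num)) y).hasFDerivAt).sub_const k).fderiv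
        change fderiv ℝ (fun p => v n p - ψ p - k) y = _ at this
        simp [gradient, this]
      have := dPhi_mono (hε n) (∇ (v n) y) (∇ ψ y)
      rw [← hgr, inner_sub_left] at this
      have h3 : 0 ≤ ‖∇ f y‖ ^ 2 / ε n := div_nonneg (sq_nonneg _) (hε n).le
      linarith
  have heq : ∫ y, ⟪dPhi (ε n) (∇ ψ y), ∇ f y⟫ = ∫ y, (-∑ i, pd i (flux (ε n) ψ i) y) * f y := by
    have hDi : ∀ i, Integrable fun y => pd i (flux (ε n) ψ i) y * f y := fun i => by
      have hc : Continuous fun y => pd i (flux (ε n) ψ i) y := by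
        unfold pd
        exact ((contDiff_flux (ε n) hψ i).continuous_fderiv (by norm_num)).clm_apply
          continuous_const
      exact (hc.mul hfL.continuous).integrable_of_hasCompactSupport hfc.mul_left
    simp only [hinner]
    rw [integral_finsetSum _ fun i _ => hFi i]
    simp only [integral_mul_pd hfL hfc (contDiff_flux (ε n) hψ _), neg_mul, Finset.sum_mul]
    rw [integral_neg, integral_finsetSum _ fun i _ => hDi i, Finset.sum_neg_distrib]
  have hc0 : ∀ y, 0 < f y → 0 < (-∑ i, pd i (flux (ε n) ψ i) y) * f y := fun y hy => by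
    have hyb : y ∈ closedBall z r := by
      refine hts (subset_closure ?_); simp [hy.ne']
    refine mul_pos (neg_pos.2 ?_) hy
    rw [sum_pd_flux (hε n).ne' hψ]
    refine mul_neg_of_pos_of_neg (div_pos (Real.exp_pos _) (pow_pos (hε n) 2)) ?_
    have h1 : ε n * ∑ i, pd i (pd i ψ) y ≤ ε n * (|Λ| + 1) := by
      refine mul_le_mul_of_nonneg_left ?_ (hε n).le
      have h2 := hΛ y hyb
      rw [Real.norm_eq_abs] at h2
      linarith [(abs_le.1 h2).2, le_abs_self Λ]
    linarith [(hball y hyb).2.2]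
  have hpos : 0 < ∫ y, (-∑ i, pd i (flux (ε n) ψ i) y) * f y := by
    have hc : Continuous fun y => (-∑ i, pd i (flux (ε n) ψ i) y) * f y :=
      (continuous_finsetSum _ fun i _ => by
        unfold pd
        exact ((contDiff_flux (ε n) hψ i).continuous_fderiv (by norm_num)).clm_apply
          continuous_const).neg.mul hfL.continuous
    refine hc.integral_pos_of_hasCompactSupport_nonneg_nonzero hfc.mul_left (fun y => ?_) (x := z)
      (hc0 z ?_).ne'
    · rcases eq_or_lt_of_le (hf0 y) with h0 | h0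
      · simp [← h0]
      · exact (hc0 y h0).le
    · simp only [hf, piecewise_eq_of_mem _ _ _ (mem_ball_self hr), hg, hk]
      exact lt_max_of_lt_left (by linarith [mul_pos hγ (pow_pos hr 2)])
  linarith

/-- Minimisers are eventually within `δ + om` of any infinity-harmonic function that is within `δ`
of the data on the frontier. -/
theorem eventually_close {n : ℕ} {P : Conf (n + 1)} {L : ℝ≥0} (hLK : L < P.K)
    {v : ℝ → E (n + 1) → ℝ} (hv : ∀ ε, 0 < ε → IsMin ε P (v ε) ∧ LipschitzWith L (v ε))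
    {u : E (n + 1) → ℝ} (huc : ContinuousOn u (closure P.D)) (hu : IsSub u P.D)
    (hu' : IsSub (fun y => -u y) P.D) {δ : ℝ} (hbd : ∀ x ∈ frontier P.D, |u x - P.G x| ≤ δ)
    {om : ℝ} (hom : 0 < om) :
    ∀ᶠ ε in 𝓝[>] 0, ∀ x ∈ closure P.D, |v ε x - u x| ≤ δ + om := by
  obtain ⟨U, hUc, hUe⟩ : ∃ U : E (n + 1) → ℝ, Continuous U ∧ ∀ x ∈ closure P.D, U x = u x := by
    obtain ⟨g, hg⟩ := ContinuousMap.exists_restrict_eq isClosed_closure
      (⟨_, huc.restrict⟩ : C(↥(closure P.D), ℝ))
    exact ⟨g, g.continuous, fun x hx => by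
      have := congrArg (fun f : C(↥(closure P.D), ℝ) => f ⟨x, hx⟩) hg
      simpa using this⟩
  have hU : IsSub U P.D := isSub_congr P.isOpen hu fun x hx => hUe x (subset_closure hx)
  have hU' : IsSub (fun y => -U y) P.D :=
    isSub_congr P.isOpen hu' fun x hx => by rw [hUe x (subset_closure hx)]
  by_contra hcon
  rw [not_eventually] at hcon
  obtain ⟨e, he, hbad⟩ : ∃ e : ℕ → ℝ, Tendsto e atTop (𝓝[>] 0) ∧
      ∀ k, ¬∀ x ∈ closure P.D, |v (e k) x - u x| ≤ δ + om := exists_seq_forall_of_frequently hcon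
  rw [tendsto_nhdsWithin_iff] at he
  obtain ⟨N, hN⟩ := eventually_atTop.1 he.2
  have hpos : ∀ k, 0 < e (k + N) := fun k => hN _ (Nat.le_add_left _ _)
  obtain ⟨w, φ, hφ, hwL, hlim⟩ := exists_subseq_tendsto (fun k => v (e (k + N)))
    (fun k => (hv _ (hpos k)).2) P.far (B := |P.G P.far|)
    (fun k => by rw [(hv _ (hpos k)).1.1.2 _ P.far_notMem])
  have hε0 : Tendsto (fun k => e (φ k + N)) atTop (𝓝 0) :=
    (he.1.comp (tendsto_add_atTop_nat N)).comp hφ.tendsto_atTop
  have hsub : IsSub w P.D := isSub_limit hLK (fun k => hpos (φ k)) hε0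
    (fun k => (hv _ (hpos _)).1) (fun k => (hv _ (hpos _)).2) hwL hlim
  have hsub' : IsSub (fun y => -w y) P.D :=
    isSub_limit (P := P.neg) hLK (fun k => hpos (φ k)) hε0
      (fun k => (hv _ (hpos _)).1.neg) (fun k => (hv _ (hpos _)).2.neg) hwL.neg
      (fun x => (hlim x).neg)
  have hwG : ∀ x ∈ frontier P.D, w x = P.G x := fun x hx => by
    refine tendsto_nhds_unique (hlim x) (tendsto_const_nhds.congr fun k => ?_)
    rw [P.isOpen.frontier_eq] at hx
    exact ((hv _ (hpos _)).1.1.2 x hx.2).symm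
  have h1 : ∀ x ∈ closure P.D, w x ≤ U x + δ := fun x hx => by
    refine comparison (u := w) (v := fun y => U y + δ) P.isOpen P.bdd hsub ?_ hwL.continuous
      (hUc.add continuous_const) (fun y hy => ?_) hx
    · have := isSub_add_const hU' (-δ)
      refine isSub_congr P.isOpen this fun y _ => by ring
    · rw [hwG y hy, hUe y (frontier_subset_closure hy)]
      linarith [(abs_le.1 (hbd y hy)).1]
  have h2 : ∀ x ∈ closure P.D, U x ≤ w x + δ := fun x hx => by
    refine comparison (u := U) (v := fun y => w y + δ) P.isOpen P.bdd hU ?_ hUc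
      (hwL.continuous.add continuous_const) (fun y hy => ?_) hx
    · have := isSub_add_const hsub' (-δ)
      refine isSub_congr P.isOpen this fun y _ => by ring
    · rw [hwG y hy, hUe y (frontier_subset_closure hy)]
      linarith [(abs_le.1 (hbd y hy)).2]
  obtain ⟨k, hk⟩ := (tendsto_uniform (fun k => (hv _ (hpos (φ k))).2) hwL hlim
    P.bdd.isCompact_closure hom).exists
  refine hbad (φ k + N) fun x hx => ?_
  have a := abs_le.1 (hk x hx)
  have b := h1 x hx
  have c := h2 x hx
  rw [hUe x hx] at b c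
  exact abs_le.2 ⟨by linarith, by linarith⟩

end Vale.Agent.P080.C1.Approx
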