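import Vale.Agent.P080.C1.Slope
import Vale.Agent.P080.C1.Approx.Limit

/-!
# The comparison principle `CompHyp`
-/

namespace Vale.Agent.P080.C1.Approx

open scoped Topology
open Set Filter Metric Vale.Agent.P080

/-- Comparison of infinity-harmonic functions on compact sets. -/
theorem compHyp : CompHyp := by
  intro U S f g hU hS hSU hf hg hbd x hx
  have ext : ∀ h : E3 → ℝ, ContinuousOn h U → ∃ H : E3 → ℝ, Continuous H ∧ ∀ y ∈ S, H y = h y := by
    intro h hh
    obtain ⟨G, hG⟩ := ContinuousMap.exists_restrict_eq hS.isClosed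
      (⟨_, (hh.mono hSU).domRestrict⟩ : C(↥S, ℝ))
    refine ⟨G, G.continuous, fun y hy => ?_⟩
    simpa using congrArg (fun k : C(↥S, ℝ) => k ⟨y, hy⟩) hG
  obtain ⟨F, hFc, hFe⟩ := ext f hf.1.1
  obtain ⟨G, hGc, hGe⟩ := ext g hg.1.1
  by_cases hxi : x ∈ interior S
  swap
  · exact hbd x ⟨subset_closure hx, hxi⟩
  have hsub : interior S ⊆ U := interior_subset.trans hSU
  have mono : ∀ {h : E3 → ℝ}, IsSub h U → IsSub h (interior S) := fun {h} hh =>
    ⟨hh.1.mono hsub, fun z hz => hh.2 z (hsub hz)⟩
  have h := comparison (n := 2) (u := F) (v := G) isOpen_interior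
    (hS.isBounded.subset interior_subset)
    (isSub_congr isOpen_interior (mono hf.1) fun y hy => hFe y (interior_subset hy))
    (isSub_congr isOpen_interior (mono hg.2) fun y hy => by rw [hGe y (interior_subset hy)])
    hFc hGc (fun y hy => ?_) (x := x) (subset_closure hxi)
  · rwa [hFe x hx, hGe x hx] at h
  · have hyS : y ∈ S :=
      (hS.isClosed.closure_subset_iff.2 interior_subset) (frontier_subset_closure hy)
    rw [hFe y hyS, hGe y hyS]
    refine hbd y ⟨subset_closure hyS, ?_⟩
    rw [isOpen_interior.frontier_eq] at hy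
    exact hy.2

end Vale.Agent.P080.C1.Approx
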