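import Vale.Agent.P080.C1.Approx.Basic
import Mathlib.Analysis.SpecialFunctions.ExpDeriv
import Mathlib.Analysis.Calculus.ContDiff.Deriv
import Mathlib.Analysis.SpecialFunctions.Exp

/-!
# The exponential energy
-/

namespace Vale.Agent.P080.C1.Approx

open scoped ContDiff Topology RealInnerProductSpace NNReal ENNReal Gradient
open Set Filter Metric MeasureTheory Vale.Agent.P080

variable {d : ℕ}

/-- exponential Lagrangian -/
noncomputable def Phi (ε : ℝ) (p : E d) : ℝ := Real.exp (‖p‖ ^ 2 / (2 * ε)) - 1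

/-- its gradient -/
noncomputable def dPhi (ε : ℝ) (p : E d) : E d := (Real.exp (‖p‖ ^ 2 / (2 * ε)) / ε) • p

lemma Phi_zero (ε : ℝ) : Phi ε (0 : E d) = 0 := by simp [Phi]

lemma Phi_nonneg {ε : ℝ} (hε : 0 < ε) (p : E d) : 0 ≤ Phi ε p := by
  rw [Phi, sub_nonneg]; exact Real.one_le_exp (by positivity)

lemma Phi_continuous (ε : ℝ) : Continuous (Phi ε : E d → ℝ) := by unfold Phi; fun_prop

lemma Phi_le {ε : ℝ} (hε : 0 < ε) {p : E d} {L : ℝ} (hp : ‖p‖ ≤ L) :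
    Phi ε p ≤ Real.exp (L ^ 2 / (2 * ε)) := by
  have : Real.exp (‖p‖ ^ 2 / (2 * ε)) ≤ Real.exp (L ^ 2 / (2 * ε)) := by gcongr
  rw [Phi]; linarith

/-- strong convexity -/
lemma Phi_plane {ε : ℝ} (hε : 0 < ε) (p q : E d) :
    Phi ε p + ⟪dPhi ε p, q - p⟫ + ‖q - p‖ ^ 2 / (2 * ε) ≤ Phi ε q := by
  set a := ‖p‖ ^ 2 / (2 * ε) with ha
  set b := ‖q‖ ^ 2 / (2 * ε) with hb
  have hab : b - a = ⟪p, q - p⟫ / ε + ‖q - p‖ ^ 2 / (2 * ε) := by
    have := norm_add_sq_real p (q - p)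
    rw [add_sub_cancel] at this
    rw [ha, hb, this]; field_simp; ring
  have h1 : Real.exp a * (b - a + 1) ≤ Real.exp b := by
    have := mul_le_mul_of_nonneg_left (Real.add_one_le_exp (b - a)) (Real.exp_pos a).le
    rwa [← Real.exp_add, add_sub_cancel] at this
  have h2 : 1 * (‖q - p‖ ^ 2 / (2 * ε)) ≤ Real.exp a * (‖q - p‖ ^ 2 / (2 * ε)) :=
    mul_le_mul_of_nonneg_right (Real.one_le_exp (by positivity)) (by positivity)
  rw [one_mul] at h2
  simp only [Phi, dPhi, real_inner_smul_left, ← ha, ← hb]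
  rw [hab] at h1
  have h3 : Real.exp a / ε * ⟪p, q - p⟫ = Real.exp a * (⟪p, q - p⟫ / ε) := by ring
  rw [h3]
  linarith

lemma Phi_plane' {ε : ℝ} (hε : 0 < ε) (p q : E d) : Phi ε p + ⟪dPhi ε p, q - p⟫ ≤ Phi ε q := by
  have := Phi_plane hε p q
  have : 0 ≤ ‖q - p‖ ^ 2 / (2 * ε) := by positivity
  linarith [Phi_plane hε p q]

/-- quantitative midpoint convexity -/
lemma Phi_midpoint {ε : ℝ} (hε : 0 < ε) (p q : E d) :
    Phi ε ((1 / 2 : ℝ) • (p + q)) + ‖p - q‖ ^ 2 / (8 * ε) ≤ (Phi ε p + Phi ε q) / 2 := by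
  set m := (1 / 2 : ℝ) • (p + q)
  have h1 := Phi_plane hε m p
  have h2 := Phi_plane hε m q
  have e1 : p - m = (1 / 2 : ℝ) • (p - q) := by simp only [m]; module
  have e2 : q - m = -((1 / 2 : ℝ) • (p - q)) := by simp only [m]; module
  rw [e1] at h1
  rw [e2, inner_neg_right, norm_neg] at h2
  have e3 : ‖(1 / 2 : ℝ) • (p - q)‖ ^ 2 = ‖p - q‖ ^ 2 / 4 := by
    rw [norm_smul, mul_pow, Real.norm_eq_abs, sq_abs]; ring
  rw [e3] at h1 h2
  have e4 : ‖p - q‖ ^ 2 / 4 / (2 * ε) = ‖p - q‖ ^ 2 / (8 * ε) := by field_simp; ring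
  rw [e4] at h1 h2
  linarith

/-- strong monotonicity -/
lemma dPhi_mono {ε : ℝ} (hε : 0 < ε) (p q : E d) :
    ‖p - q‖ ^ 2 / ε ≤ ⟪dPhi ε p - dPhi ε q, p - q⟫ := by
  have h1 := Phi_plane hε p q
  have h2 := Phi_plane hε q p
  rw [norm_sub_rev] at h1
  rw [← neg_sub p q, inner_neg_right] at h1
  rw [inner_sub_left]
  have : ‖p - q‖ ^ 2 / ε = 2 * (‖p - q‖ ^ 2 / (2 * ε)) := by field_simp
  linarith

lemma contDiff_dPhi (ε : ℝ) : ContDiff ℝ ∞ (dPhi ε : E d → E d) := by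
  unfold dPhi
  exact ((((contDiff_id.norm_sq ℝ).div_const _).exp).div_const ε).smul contDiff_id

lemma dPhi_lipschitz (ε L : ℝ) : ∃ Λ : ℝ, 0 ≤ Λ ∧ ∀ p q : E d, ‖p‖ ≤ L → ‖q‖ ≤ L →
    ‖dPhi ε p - dPhi ε q‖ ≤ Λ * ‖p - q‖ := by
  obtain ⟨K, hK⟩ := ((contDiff_dPhi ε).of_le (by simp)).contDiffOn.exists_lipschitzOnWith
    (n := 1) (by simp) (convex_closedBall (0 : E d) L) (isCompact_closedBall 0 L)
  exact ⟨K, K.2, fun p q hp hq => hK.norm_sub_le (by simpa using hp) (by simpa using hq)⟩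

lemma dPhi_bound (ε L : ℝ) : ∃ C : ℝ, 0 ≤ C ∧ ∀ p : E d, ‖p‖ ≤ L → ‖dPhi ε p‖ ≤ C := by
  obtain ⟨C, hC⟩ := (isCompact_closedBall (0 : E d) L).exists_bound_of_continuousOn
    (contDiff_dPhi ε).continuous.continuousOn
  exact ⟨max C 0, le_max_right _ _, fun p hp => (hC p (by simpa using hp)).trans (le_max_left _ _)⟩

lemma gradient_comp_sub (v : E d → ℝ) (h : E d) (c : ℝ) (x : E d) :
    ∇ (fun y => v (y - h) + c) x = ∇ v (x - h) := by
  simp only [gradient, fderiv_add_const]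
  rw [fderiv_comp_sub]

/-- the convexity step: gradients mollify, energy decreases -/
lemma lintegral_Phi_mol_le {ε : ℝ} (hε : 0 < ε) (n : ℝ) {v : E d → ℝ} {K : ℝ≥0}
    (hv : LipschitzWith K v) :
    ∫⁻ x, ENNReal.ofReal (Phi ε (∇ (mol n v) x)) ≤ ∫⁻ x, ENNReal.ofReal (Phi ε (∇ v x)) := by
  have hm : Measurable fun x => ENNReal.ofReal (Phi ε (∇ v x)) :=
    ((Phi_continuous ε).measurable.comp (measurable_gradient v)).ennreal_ofReal
  calc ∫⁻ x, ENNReal.ofReal (Phi ε (∇ (mol n v) x))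
      ≤ ∫⁻ x, ∫⁻ h, ENNReal.ofReal (wgt d n h) * ENNReal.ofReal (Phi ε (∇ v (x - h))) := by
        refine lintegral_mono fun x => ?_
        rw [gradient_mol n hv x]
        refine (ENNReal.ofReal_le_ofReal (convex_mol_le n (measurable_gradient v).aestronglyMeasurable
          (norm_gradient_le hv) (Phi_continuous ε) (Phi_plane' hε) x)).trans (le_of_eq ?_)
        rw [ofReal_integral_eq_lintegral_ofReal
          (integrable_wgt_smul n (g := fun y => Phi ε (∇ v y))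
            ((Phi_continuous ε).measurable.comp (measurable_gradient v)).aestronglyMeasurable
            (C := Real.exp ((K : ℝ) ^ 2 / (2 * ε))) (fun y => by
              rw [Real.norm_eq_abs, abs_of_nonneg (Phi_nonneg hε _)]
              exact Phi_le hε (norm_gradient_le hv y)) x)
          (Eventually.of_forall fun h => smul_nonneg (wgt_nonneg n h) (Phi_nonneg hε _))]
        simp only [smul_eq_mul, ENNReal.ofReal_mul (wgt_nonneg n _)]
    _ = _ := lintegral_mol n hm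

end Vale.Agent.P080.C1.Approx
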