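import Vale.Agent.P080.C1.Approx.Chord

/-!
# Weak Euler-Lagrange equation
-/

namespace Vale.Agent.P080.C1.Approx

open scoped ContDiff Topology RealInnerProductSpace NNReal ENNReal Gradient
open Set Filter Metric MeasureTheory Vale.Agent.P080

variable {d : ℕ}

/-- bounded measurable functions supported in a compact set are integrable -/
lemma integrable_of_bound {F : Type*} [NormedAddCommGroup F] {f : E d → F}
    (hf : AEStronglyMeasurable f volume) {C : ℝ} {S : Set (E d)} (hS : IsCompact S)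
    (hb : ∀ x ∈ S, ‖f x‖ ≤ C) (h0 : ∀ x, x ∉ S → f x = 0) : Integrable f := by
  refine ((integrableOn_const (C := C) hS.measure_lt_top.ne).integrable_indicator
    hS.measurableSet).mono' hf (Eventually.of_forall fun x => ?_)
  by_cases hx : x ∈ S
  · rw [indicator_of_mem hx]; exact hb x hx
  · rw [indicator_of_notMem hx, h0 x hx, norm_zero]

lemma integrable_inner_dPhi (ε : ℝ) {v ψ : E d → ℝ} {K Lψ : ℝ≥0} (hv : LipschitzWith K v)
    (hψ : LipschitzWith Lψ ψ) (hψc : HasCompactSupport ψ) :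
    Integrable fun x => ⟪dPhi ε (∇ v x), ∇ ψ x⟫ := by
  obtain ⟨C, hC0, hC⟩ := dPhi_bound (d := d) ε K
  refine integrable_of_bound (C := C * Lψ) ?_ hψc.isCompact (fun x _ => ?_) fun x hx => by
    simp [gradient_zero_off_tsupport hx]
  · exact (continuous_inner.measurable.comp (((contDiff_dPhi ε).continuous.measurable.comp
      (measurable_gradient v)).prodMk (measurable_gradient ψ))).aestronglyMeasurable
  · exact (norm_inner_le_norm _ _).trans
      (mul_le_mul (hC _ (norm_gradient_le hv x)) (norm_gradient_le hψ x) (norm_nonneg _) hC0)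

/-- A minimiser with slack in the Lipschitz constraint solves the weak equation. -/
theorem IsMin.euler {ε : ℝ} (hε : 0 < ε) {P : Conf d} {v : E d → ℝ} (hv : IsMin ε P v)
    {L : ℝ≥0} (hL : LipschitzWith L v) (hLK : L < P.K) {ψ : E d → ℝ} {Lψ : ℝ≥0}
    (hψ : LipschitzWith Lψ ψ) (hψc : HasCompactSupport ψ) (hψD : tsupport ψ ⊆ P.D) :
    ∫ x, ⟪dPhi ε (∇ v x), ∇ ψ x⟫ = 0 := by
  obtain ⟨Λ, hΛ0, hΛ⟩ := dPhi_lipschitz (d := d) ε P.K
  have hI := integrable_inner_dPhi ε hv.1.1 hψ hψc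
  have hQ := integrable_normSq_gradient hψ hψc 1
  simp only [div_one] at hQ
  obtain ⟨τ, hτ, hτK⟩ : ∃ τ : ℝ, 0 < τ ∧ τ * Lψ + L ≤ P.K := by
    have : (L : ℝ) < P.K := hLK
    refine ⟨((P.K : ℝ) - L) / ((Lψ : ℝ) + 1), div_pos (by linarith) (by positivity), ?_⟩
    rw [div_mul_eq_mul_div, ← le_sub_iff_add_le, div_le_iff₀ (by positivity)]
    nlinarith [Lψ.2]
  have key : ∀ t, |t| ≤ τ →
      0 ≤ t * (∫ x, ⟪dPhi ε (∇ v x), ∇ ψ x⟫) + t ^ 2 * (Λ * ∫ x, ‖∇ ψ x‖ ^ 2) := by
    intro t ht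
    set vt : E d → ℝ := fun x => v x + t * ψ x with hvt
    have hvtK : LipschitzWith P.K vt := by
      refine LipschitzWith.of_dist_le_mul fun a b => ?_
      have h1 := hL.dist_le_mul a b
      have h2 := hψ.dist_le_mul a b
      rw [Real.dist_eq] at h1 h2 ⊢
      calc |vt a - vt b| = |(v a - v b) + t * (ψ a - ψ b)| := by simp only [hvt]; ring_nf
        _ ≤ |v a - v b| + |t * (ψ a - ψ b)| := abs_add_le _ _
        _ ≤ L * dist a b + τ * (Lψ * dist a b) := by
            rw [abs_mul]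
            exact add_le_add h1 (mul_le_mul ht h2 (abs_nonneg _) hτ.le)
        _ ≤ P.K * dist a b := by nlinarith [dist_nonneg (x := a) (y := b)]
    have hc : Cls P.D P.G P.K vt := ⟨hvtK, fun x hx => by
      simp [hvt, image_eq_zero_of_notMem_tsupport fun h => hx (hψD h), hv.1.2 x hx]⟩
    have hup : energy ε vt ≤ ∫ x, (Phi ε (∇ v x)
        + (t * ⟪dPhi ε (∇ v x), ∇ ψ x⟫ + t ^ 2 * (Λ * ‖∇ ψ x‖ ^ 2))) := by
      refine integral_mono_ae (P.integrable_phi hε hc)
        ((P.integrable_phi hε hv.1).add ((hI.const_mul t).add ((hQ.const_mul _).const_mul _))) ?_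
      filter_upwards [hv.1.1.ae_differentiableAt (μ := volume),
        hψ.ae_differentiableAt (μ := volume)] with x a b
      have hg : ∇ vt x = ∇ v x + t • ∇ ψ x := by
        have := (a.hasFDerivAt.add (b.hasFDerivAt.const_mul t)).fderiv
        change fderiv ℝ vt x = _ at this
        simp [gradient, this]
      have h1 := Phi_plane' hε (∇ vt x) (∇ v x)
      have h2 := hΛ _ _ (norm_gradient_le hvtK x) (norm_gradient_le hv.1.1 x)
      rw [hg, add_sub_cancel_left, norm_smul] at h2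
      rw [hg, sub_add_cancel_left, inner_neg_right, real_inner_smul_right] at h1
      have h3 := real_inner_le_norm (dPhi ε (∇ v x + t • ∇ ψ x) - dPhi ε (∇ v x)) (t • ∇ ψ x)
      rw [inner_sub_left, real_inner_smul_right, real_inner_smul_right, norm_smul] at h3
      have h4 := mul_le_mul_of_nonneg_right h2 (mul_nonneg (norm_nonneg t) (norm_nonneg (∇ ψ x)))
      have h8 : Λ * (‖t‖ * ‖∇ ψ x‖) * (‖t‖ * ‖∇ ψ x‖) = t ^ 2 * (Λ * ‖∇ ψ x‖ ^ 2) := by
        rw [← sq_abs t, Real.norm_eq_abs]; ring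
      rw [hg]
      linarith
    have hj : Integrable fun x => t * ⟪dPhi ε (∇ v x), ∇ ψ x⟫ + t ^ 2 * (Λ * ‖∇ ψ x‖ ^ 2) :=
      (hI.const_mul t).add ((hQ.const_mul _).const_mul _)
    rw [integral_add (P.integrable_phi hε hv.1) hj,
      integral_add (hI.const_mul t) ((hQ.const_mul _).const_mul _), integral_const_mul,
      integral_const_mul, integral_const_mul] at hup
    have := hv.2 vt hc
    simp only [energy] at this hup
    linarith
  set I := ∫ x, ⟪dPhi ε (∇ v x), ∇ ψ x⟫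
  set Q := Λ * ∫ x, ‖∇ ψ x‖ ^ 2
  have hQ0 : 0 ≤ Q := mul_nonneg hΛ0 (integral_nonneg fun x => sq_nonneg _)
  rcases eq_or_ne I 0 with h | h
  · exact h
  exfalso
  obtain ⟨s, hs, hsτ, hsQ⟩ : ∃ s : ℝ, 0 < s ∧ s ≤ τ ∧ s * Q < |I| := by
    refine ⟨min τ (|I| / (2 * (Q + 1))), lt_min hτ (by positivity), min_le_left _ _, ?_⟩
    calc _ ≤ |I| / (2 * (Q + 1)) * Q := mul_le_mul_of_nonneg_right (min_le_right _ _) hQ0
      _ < |I| := by
        rw [div_mul_eq_mul_div, div_lt_iff₀ (by positivity)]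
        nlinarith [abs_pos.2 h]
  rcases lt_or_gt_of_ne h with hn | hp
  · have := key s (by rwa [abs_of_pos hs])
    rw [abs_of_neg hn] at hsQ
    nlinarith
  · have := key (-s) (by rwa [abs_neg, abs_of_pos hs])
    rw [abs_of_pos hp] at hsQ
    nlinarith

end Vale.Agent.P080.C1.Approx
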