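import Vale.Agent.P080.C1.Approx.L2
import Vale.Agent.P080.C1.Approx.Limit
import Mathlib.Topology.MetricSpace.Thickening

/-!
# Second derivatives of weak solutions: difference quotients
-/

namespace Vale.Agent.P080.C1.Approx

open scoped ContDiff Topology RealInnerProductSpace NNReal ENNReal Gradient
open Set Filter Metric MeasureTheory Vale.Agent.P080

variable {d : ℕ}

/-- weak solution of the exponential Euler-Lagrange equation in `D` -/
def Weak (ε : ℝ) (D : Set (E d)) (v : E d → ℝ) : Prop :=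
  ∀ (ψ : E d → ℝ) (Lψ : ℝ≥0), LipschitzWith Lψ ψ → HasCompactSupport ψ → tsupport ψ ⊆ D →
    ∫ x, ⟪dPhi ε (∇ v x), ∇ ψ x⟫ = 0

lemma gradient_comp_add (v : E d → ℝ) (h x : E d) :
    ∇ (fun y => v (y + h)) x = ∇ v (x + h) := by
  simpa [sub_neg_eq_add] using gradient_comp_sub v (-h) 0 x

/-- difference quotients of the gradient are bounded in `L²` -/
theorem caccioppoli {ε : ℝ} (hε : 0 < ε) {D : Set (E d)} (hD : IsOpen D) {v : E d → ℝ} {L : ℝ≥0}
    (hL : LipschitzWith L v) (hw : Weak ε D v) {K : Set (E d)} (hK : IsCompact K) (hKD : K ⊆ D) :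
    ∃ C h0 : ℝ, 0 ≤ C ∧ 0 < h0 ∧ ∀ h : E d, ‖h‖ ≤ h0 →
      ∫ x in K, ‖∇ v (x + h) - ∇ v x‖ ^ 2 ≤ C * ‖h‖ ^ 2 := by
  obtain ⟨ρ, hρ, hρD⟩ := hK.exists_cthickening_subset_open hD hKD
  rcases K.eq_empty_or_nonempty with rfl | hne
  · exact ⟨0, 1, le_rfl, one_pos, fun h _ => by simp⟩
  set S := cthickening (ρ / 2) K with hSdef
  have hSc : IsCompact S := hK.cthickening
  obtain ⟨Λ, hΛ0, hΛ⟩ := dPhi_lipschitz (d := d) ε L
  set B : ℝ := 4 * ε * Λ ^ 2 * L ^ 2 * (2 / ρ) ^ 2 * (volume.real S)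
  refine ⟨B * ε, ρ / 4, by positivity, by linarith, fun h hh => ?_⟩
  set ζ : E d → ℝ := fun x => max (1 - 2 / ρ * infDist x K) 0 with hζ
  set Zc : ℝ≥0 := ⟨2 / ρ, by positivity⟩
  have hζL : LipschitzWith Zc ζ := by
    refine (LipschitzWith.of_dist_le_mul fun a b => ?_).max_const 0
    rw [Real.dist_eq]
    have h1 := (lipschitz_infDist_pt K).dist_le_mul a b
    rw [Real.dist_eq, NNReal.coe_one, one_mul] at h1
    have e : 1 - 2 / ρ * infDist a K - (1 - 2 / ρ * infDist b K)
        = -(2 / ρ * (infDist a K - infDist b K)) := by ring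
    rw [e, abs_neg, abs_mul, abs_of_pos (by positivity : 0 < 2 / ρ)]
    exact mul_le_mul_of_nonneg_left h1 (by positivity)
  have hζ01 : ∀ x, 0 ≤ ζ x ∧ ζ x ≤ 1 := fun x => by
    refine ⟨le_max_right _ _, max_le ?_ zero_le_one⟩
    have : 0 ≤ 2 / ρ * infDist x K := mul_nonneg (by positivity) infDist_nonneg
    linarith
  have hζK : ∀ x ∈ K, ζ x = 1 := fun x hx => by simp [hζ, infDist_zero_of_mem hx]
  have hζS : ∀ x, x ∉ S → ζ x = 0 := fun x hx => by
    rw [hSdef, cthickening_eq_preimage_infEDist, mem_preimage, mem_Iic, not_le] at hx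
    have : ρ / 2 < infDist x K := by
      rw [infDist]
      exact (ENNReal.ofReal_lt_iff_lt_toReal (by linarith) (infEDist_ne_top hne)).1 hx
    have h2 : 1 - 2 / ρ * infDist x K ≤ 0 := by
      rw [div_mul_eq_mul_div, sub_nonpos, le_div_iff₀ hρ]; linarith
    simp [hζ, h2]
  set w : E d → ℝ := fun x => v (x + h) - v x with hwdef
  have hvh : LipschitzWith L fun x => v (x + h) := LipschitzWith.of_dist_le_mul fun a b => by
    simpa [dist_add_right] using hL.dist_le_mul (a + h) (b + h)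
  have hwL : LipschitzWith (L + L) w := hvh.sub hL
  have hwb : ∀ x, |w x| ≤ L * ‖h‖ := fun x => by
    have := hL.dist_le_mul (x + h) x
    rwa [Real.dist_eq, dist_eq_norm, add_sub_cancel_left] at this
  set ψ : E d → ℝ := fun x => ζ x * ζ x * w x with hψ
  set Lψ : ℝ≥0 := ⟨2 * Zc * (L * ‖h‖) + 2 * L, by positivity⟩
  have hψL : LipschitzWith Lψ ψ := LipschitzWith.of_dist_le_mul fun a b => by
    have h1 := hζL.dist_le_mul a b
    have h2 := hwL.dist_le_mul a b
    rw [Real.dist_eq] at h1 h2 ⊢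
    rw [NNReal.coe_add] at h2
    obtain ⟨a0, a1⟩ := hζ01 a
    obtain ⟨b0, b1⟩ := hζ01 b
    have e : ψ a - ψ b = (ζ a - ζ b) * ((ζ a + ζ b) * w a) + ζ b * ζ b * (w a - w b) := by
      simp only [hψ]; ring
    have h3 : |(ζ a + ζ b) * w a| ≤ 2 * (L * ‖h‖) := by
      rw [abs_mul, abs_of_nonneg (add_nonneg a0 b0)]
      exact mul_le_mul (by linarith) (hwb a) (abs_nonneg _) (by norm_num)
    have h4 : |ζ b * ζ b * (w a - w b)| ≤ 1 * ((L + L) * dist a b) := by
      rw [abs_mul, abs_of_nonneg (mul_nonneg b0 b0)]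
      exact mul_le_mul (mul_le_one₀ b1 b0 b1) h2 (abs_nonneg _) zero_le_one
    have h5 : |(ζ a - ζ b) * ((ζ a + ζ b) * w a)| ≤ Zc * dist a b * (2 * (L * ‖h‖)) := by
      rw [abs_mul]
      exact mul_le_mul h1 h3 (abs_nonneg _) (by positivity)
    rw [e]
    refine (abs_add_le _ _).trans ((add_le_add h5 h4).trans (le_of_eq ?_))
    have hcoe : (Lψ : ℝ) = 2 * Zc * (L * ‖h‖) + 2 * L := rfl
    rw [hcoe]; ring
  have hψS : tsupport ψ ⊆ S := closure_minimal (fun x hx => by
    by_contra hxS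
    simp [hψ, hζS x hxS] at hx) isClosed_cthickening
  have hψc : HasCompactSupport ψ := hSc.of_isClosed_subset (isClosed_tsupport ψ) hψS
  have hSD : S ⊆ D := (cthickening_mono (by linarith) K).trans hρD
  have hψhL : LipschitzWith Lψ fun x => ψ (x - h) := LipschitzWith.of_dist_le_mul fun a b => by
    simpa [dist_sub_right] using hψL.dist_le_mul (a - h) (b - h)
  have hψh : tsupport (fun x => ψ (x - h)) ⊆ D ∧ HasCompactSupport fun x => ψ (x - h) := by
    have h1 : tsupport (fun x => ψ (x - h)) ⊆ cthickening ρ K := by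
      refine closure_minimal (fun x hx => ?_) isClosed_cthickening
      have hxS : x - h ∈ S := hψS (subset_closure hx)
      have h2 : x ∈ cthickening (ρ / 4) S :=
        mem_cthickening_of_dist_le x (x - h) _ S hxS (by simpa [dist_eq_norm] using hh)
      exact cthickening_mono (by linarith) K
        (cthickening_cthickening_subset (by linarith) (by linarith) K h2)
    exact ⟨h1.trans hρD, hK.cthickening.of_isClosed_subset (isClosed_tsupport _) h1⟩
  have e2 : ∫ x, ⟪dPhi ε (∇ v (x + h)), ∇ ψ x⟫ = 0 := by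
    have h1 := hw _ Lψ hψhL hψh.2 hψh.1
    rw [← integral_add_right_eq_self _ h] at h1
    refine Eq.trans (integral_congr_ae (Eventually.of_forall fun x => ?_)) h1
    have := gradient_comp_sub ψ h 0 (x + h)
    simp only [add_zero, add_sub_cancel_right] at this
    simp only [this]
  have e1 := hw ψ Lψ hψL hψc (hψS.trans hSD)
  have hI1 := integrable_inner_dPhi ε hL hψL hψc
  have hI2 : Integrable fun x => ⟪dPhi ε (∇ v (x + h)), ∇ ψ x⟫ := by
    simpa only [gradient_comp_add] using integrable_inner_dPhi ε hvh hψL hψc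
  have hpt : ∀ᵐ x, ζ x * ζ x * ‖∇ v (x + h) - ∇ v x‖ ^ 2 / (2 * ε)
      ≤ ⟪dPhi ε (∇ v (x + h)), ∇ ψ x⟫ - ⟪dPhi ε (∇ v x), ∇ ψ x⟫
        + S.indicator (fun _ => 2 * ε * Λ ^ 2 * L ^ 2 * (2 / ρ) ^ 2 * ‖h‖ ^ 2) x := by
    filter_upwards [hζL.ae_differentiableAt (μ := volume), hwL.ae_differentiableAt (μ := volume),
      hvh.ae_differentiableAt (μ := volume), hL.ae_differentiableAt (μ := volume)] with x a b c e
    set U := ∇ v (x + h) - ∇ v x
    have hgw : ∇ w x = U := by
      have h1 := (c.hasFDerivAt.sub e.hasFDerivAt).fderiv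
      change fderiv ℝ w x = _ at h1
      simp only [U, ← gradient_comp_add]
      simp [gradient, h1]
    have hgψ : ∇ ψ x = (ζ x * ζ x) • U + (2 * ζ x * w x) • ∇ ζ x := by
      have h1 := ((a.hasFDerivAt.mul a.hasFDerivAt).mul b.hasFDerivAt).fderiv
      change fderiv ℝ ψ x = _ at h1
      rw [← hgw]
      simp only [gradient, h1, map_add, map_smul, Pi.mul_apply]
      module
    set T := dPhi ε (∇ v (x + h)) - dPhi ε (∇ v x)
    have hT : ‖T‖ ≤ Λ * ‖U‖ := hΛ _ _ (norm_gradient_le hL _) (norm_gradient_le hL _)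
    have hmono := dPhi_mono hε (∇ v (x + h)) (∇ v x)
    have hexp : ⟪dPhi ε (∇ v (x + h)), ∇ ψ x⟫ - ⟪dPhi ε (∇ v x), ∇ ψ x⟫
        = ζ x * ζ x * ⟪T, U⟫ + 2 * ζ x * w x * ⟪T, ∇ ζ x⟫ := by
      rw [← inner_sub_left, hgψ, inner_add_right, real_inner_smul_right, real_inner_smul_right]
    rw [hexp]
    by_cases hxS : x ∈ S
    · rw [indicator_of_mem hxS]
      have h1 : |⟪T, ∇ ζ x⟫| ≤ Λ * ‖U‖ * (2 / ρ) := (abs_real_inner_le_norm _ _).trans
        (mul_le_mul hT (norm_gradient_le hζL x) (norm_nonneg _) (by positivity))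
      obtain ⟨z0, z1⟩ := hζ01 x
      have h2 : |2 * ζ x * w x * ⟪T, ∇ ζ x⟫| ≤ 2 * ζ x * (L * ‖h‖) * (Λ * ‖U‖ * (2 / ρ)) := by
        rw [abs_mul, abs_mul, abs_of_nonneg (by linarith : 0 ≤ 2 * ζ x)]
        exact mul_le_mul (mul_le_mul_of_nonneg_left (hwb x) (by linarith)) h1 (abs_nonneg _)
          (by positivity)
      have h3 := mul_le_mul_of_nonneg_left hmono (mul_nonneg z0 z0)
      have h4 : 2 * ζ x * (L * ‖h‖) * (Λ * ‖U‖ * (2 / ρ))
          ≤ ζ x * ζ x * ‖U‖ ^ 2 / (2 * ε) + 2 * ε * Λ ^ 2 * L ^ 2 * (2 / ρ) ^ 2 * ‖h‖ ^ 2 := by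
        have h5 : 0 ≤ (ζ x * ‖U‖ - 2 * ε * ((L * ‖h‖) * Λ * (2 / ρ))) ^ 2 / (2 * ε) := by positivity
        have h6 : (ζ x * ‖U‖ - 2 * ε * ((L * ‖h‖) * Λ * (2 / ρ))) ^ 2 / (2 * ε)
            = ζ x * ζ x * ‖U‖ ^ 2 / (2 * ε) + 2 * ε * Λ ^ 2 * L ^ 2 * (2 / ρ) ^ 2 * ‖h‖ ^ 2
              - 2 * ζ x * (L * ‖h‖) * (Λ * ‖U‖ * (2 / ρ)) := by
          field_simp; ring
        linarith
      have h7 : ζ x * ζ x * (‖U‖ ^ 2 / ε) = 2 * (ζ x * ζ x * ‖U‖ ^ 2 / (2 * ε)) := by field_simp
      linarith [neg_abs_le (2 * ζ x * w x * ⟪T, ∇ ζ x⟫)]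
    · rw [indicator_of_notMem hxS, hζS x hxS]
      simp
  have hsmall : ∀ x, ‖∇ v (x + h) - ∇ v x‖ ≤ 2 * L := fun x =>
    (norm_sub_le _ _).trans (by linarith [norm_gradient_le hL (x + h), norm_gradient_le hL x])
  have hmU : Measurable fun x => ‖∇ v (x + h) - ∇ v x‖ ^ 2 :=
    ((((measurable_gradient v).comp (measurable_id.add_const h)).sub
      (measurable_gradient v)).norm.pow_const 2)
  have hL0 : Integrable fun x => ζ x * ζ x * ‖∇ v (x + h) - ∇ v x‖ ^ 2 / (2 * ε) := by
    refine integrable_of_bound (C := (2 * L) ^ 2 / (2 * ε))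
      (((hζL.continuous.mul hζL.continuous).measurable.mul hmU).div_const _).aestronglyMeasurable
      hSc (fun x _ => ?_) fun x hx => by simp [hζS x hx]
    obtain ⟨z0, z1⟩ := hζ01 x
    rw [Real.norm_eq_abs, abs_of_nonneg (by positivity)]
    gcongr
    calc ζ x * ζ x * ‖∇ v (x + h) - ∇ v x‖ ^ 2 ≤ 1 * (2 * L) ^ 2 :=
          mul_le_mul (mul_le_one₀ z1 z0 z1) (pow_le_pow_left₀ (norm_nonneg _) (hsmall x) 2)
            (sq_nonneg _) zero_le_one
      _ = _ := one_mul _
  have hconst : Integrable (S.indicator fun _ : E d =>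
      2 * ε * Λ ^ 2 * (L : ℝ) ^ 2 * (2 / ρ) ^ 2 * ‖h‖ ^ 2) :=
    (integrableOn_const hSc.measure_lt_top.ne).integrable_indicator hSc.measurableSet
  have hint := integral_mono_ae hL0 ((hI2.sub hI1).add hconst) hpt
  simp only [Pi.add_apply, Pi.sub_apply] at hint
  rw [integral_add (f := fun x => ⟪dPhi ε (∇ v (x + h)), ∇ ψ x⟫ - ⟪dPhi ε (∇ v x), ∇ ψ x⟫)
    (hI2.sub hI1) hconst, integral_sub hI2 hI1, e1, e2, integral_indicator hSc.measurableSet,
    setIntegral_const, smul_eq_mul] at hint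
  have h8 : ∫ x in K, ‖∇ v (x + h) - ∇ v x‖ ^ 2 / (2 * ε)
      ≤ ∫ x, ζ x * ζ x * ‖∇ v (x + h) - ∇ v x‖ ^ 2 / (2 * ε) := by
    refine le_trans (le_of_eq ?_) (setIntegral_le_integral (s := K) hL0
      (Eventually.of_forall fun x => div_nonneg (mul_nonneg (mul_self_nonneg _) (sq_nonneg _))
        (by positivity)))
    refine setIntegral_congr_fun hK.measurableSet fun x hx => ?_
    simp [hζK x hx]
  rw [integral_div] at h8
  have h9 := (div_le_iff₀ (by positivity : (0:ℝ) < 2 * ε)).1 (h8.trans hint)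
  refine h9.trans (le_of_eq ?_)
  simp only [B]; ring

/-- second derivatives of mollifications -/
lemma hess_bound {ε : ℝ} (hε : 0 < ε) {D : Set (E d)} (hD : IsOpen D) {v : E d → ℝ} {L : ℝ≥0}
    (hL : LipschitzWith L v) (hw : Weak ε D v) {K : Set (E d)} (hK : IsCompact K) (hKD : K ⊆ D) :
    ∃ C : ℝ, 0 ≤ C ∧ ∀ᶠ η in 𝓝[>] (0 : ℝ), ∀ i j : Fin d,
      ∫ x in K, pd i (pd j (mol η v)) x ^ 2 ≤ C := by
  obtain ⟨ρ, hρ, hρD⟩ := hK.exists_cthickening_subset_open hD hKD
  set K' := cthickening ρ K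
  have hK' : IsCompact K' := hK.cthickening
  obtain ⟨C, h0, hC, hh0, hcac⟩ := caccioppoli hε hD hL hw hK' hρD
  refine ⟨C, hC, ?_⟩
  filter_upwards [self_mem_nhdsWithin,
    mem_nhdsWithin_of_mem_nhds (Iio_mem_nhds hρ)] with η (hη : 0 < η) (hηρ : η < ρ) i j
  set e : E d := EuclideanSpace.single i 1
  set P : E d → E d := fun x => ∇ (mol η v) x
  have hsm : ContDiff ℝ ∞ (mol η v) := contDiff_mol η hL.continuous.locallyIntegrable
  have hq : ∀ x, Tendsto (fun t : ℝ => t⁻¹ * (P (x + t • e) j - P x j)) (𝓝[≠] 0)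
      (𝓝 (pd i (pd j (mol η v)) x)) := fun x => by
    have hd : DifferentiableAt ℝ (pd j (mol η v)) x :=
      ((differentiable_pd (hsm.of_le (WithTop.coe_le_coe.2 le_top)) j).differentiable
        (by norm_num)) x
    simpa [P, gradient_apply, pd, e] using (hd.hasFDerivAt.hasLineDerivAt e).tendsto_slope_zero
  -- finite differences
  have hfin : ∀ t : ℝ, t ≠ 0 → ‖t • e‖ ≤ h0 →
      ∫ x in K, (t⁻¹ * (P (x + t • e) j - P x j)) ^ 2 ≤ C := by
    intro t ht hth
    set Gf : E d → ℝ := fun y => K'.indicator (fun y => (∇ v (y + t • e) - ∇ v y) j) y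
    have hGb : ∀ y, |Gf y| ≤ 2 * L := fun y => by
      simp only [Gf]
      by_cases hy : y ∈ K'
      · rw [indicator_of_mem hy]
        have h1 : |(∇ v (y + t • e) - ∇ v y) j| ≤ ‖∇ v (y + t • e) - ∇ v y‖ := by
          simpa [Real.norm_eq_abs] using PiLp.norm_apply_le (∇ v (y + t • e) - ∇ v y) j
        exact h1.trans ((norm_sub_le _ _).trans (by
          linarith [norm_gradient_le hL (y + t • e), norm_gradient_le hL y]))
      · rw [indicator_of_notMem hy, abs_zero]; positivity
    have hGm : AEStronglyMeasurable Gf volume :=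
      ((((EuclideanSpace.proj (𝕜 := ℝ) j).continuous.measurable).comp
        (((measurable_gradient v).comp (measurable_id.add_const _)).sub
          (measurable_gradient v))).indicator hK'.measurableSet).aestronglyMeasurable
    have hGi : Integrable Gf := integrable_of_bound (C := 2 * L) hGm hK'
      (fun y _ => hGb y) fun y hy => by simp [Gf, hy]
    have hGi2 : Integrable fun y => Gf y ^ 2 := integrable_of_bound (C := (2 * L) ^ 2)
      (hGm.pow 2) hK'
      (fun y _ => by
        rw [Real.norm_eq_abs, abs_of_nonneg (sq_nonneg _), ← sq_abs]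
        exact pow_le_pow_left₀ (abs_nonneg _) (hGb y) 2)
      fun y hy => by simp [Gf, hy]
    have hPG : ∀ x ∈ K, P (x + t • e) j - P x j = mol η Gf x := by
      intro x hx
      have hg : ∀ z, P z j = ∫ hh, wgt d η hh * (∇ v (z - hh)) j := fun z => by
        simp only [P, gradient_mol η hL z]
        have := (EuclideanSpace.proj (𝕜 := ℝ) j).integral_comp_comm
          (integrable_wgt_smul η (measurable_gradient v).aestronglyMeasurable
            (norm_gradient_le hL) z)
        simpa [mol] using this.symm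
      have hint : ∀ z, Integrable fun hh => wgt d η hh * (∇ v (z - hh)) j := fun z => by
        simpa using (EuclideanSpace.proj (𝕜 := ℝ) j).integrable_comp
          (integrable_wgt_smul η (measurable_gradient v).aestronglyMeasurable
            (norm_gradient_le hL) z)
      rw [hg, hg, ← integral_sub (hint _) (hint _)]
      refine integral_congr_ae (Eventually.of_forall fun hh => ?_)
      by_cases hz : η ≤ ‖hh‖
      · simp [wgt_eq_zero hη hz]
      · have hmem : x - hh ∈ K' := mem_cthickening_of_dist_le _ x _ K hx (by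
          rw [dist_eq_norm, sub_sub_cancel_left, norm_neg]; linarith [not_le.1 hz])
        have e3 : x + t • e - hh = x - hh + t • e := by abel
        simp only [Gf, indicator_of_mem hmem, e3, smul_eq_mul, PiLp.sub_apply]
        ring
    have hsq : ∫ x in K, (P (x + t • e) j - P x j) ^ 2 ≤ C * ‖t • e‖ ^ 2 := by
      have hMi : Integrable fun x => mol η Gf x ^ 2 := by
        refine (integrable_mol η hGi2).mono' ((integrable_mol η hGi).aestronglyMeasurable.pow 2)
          (Eventually.of_forall fun x => ?_)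
        rw [Real.norm_eq_abs, abs_of_nonneg (sq_nonneg _)]
        exact sq_mol_le η hGi hGi2 x
      calc ∫ x in K, (P (x + t • e) j - P x j) ^ 2 = ∫ x in K, mol η Gf x ^ 2 :=
            setIntegral_congr_fun hK.measurableSet fun x hx => by simp only [hPG x hx]
        _ ≤ ∫ x, mol η Gf x ^ 2 :=
            setIntegral_le_integral hMi (Eventually.of_forall fun x => sq_nonneg _)
        _ ≤ ∫ x, mol η (fun y => Gf y ^ 2) x :=
            integral_mono hMi (integrable_mol η hGi2) fun x => sq_mol_le η hGi hGi2 x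
        _ = ∫ x in K', Gf x ^ 2 := by
            rw [integral_mol η hGi2]
            exact (setIntegral_eq_integral_of_forall_compl_eq_zero fun x hx => by
              simp [Gf, hx]).symm
        _ ≤ ∫ x in K', ‖∇ v (x + t • e) - ∇ v x‖ ^ 2 := by
            refine setIntegral_mono_on hGi2.integrableOn ?_ hK'.measurableSet fun x hx => ?_
            · exact Measure.integrableOn_of_bounded hK'.measure_lt_top.ne
                ((((measurable_gradient v).comp (measurable_id.add_const _)).sub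
                  (measurable_gradient v)).norm.pow_const 2).aestronglyMeasurable
                (M := (2 * L) ^ 2) (Eventually.of_forall fun y => by
                  rw [Real.norm_eq_abs, abs_of_nonneg (sq_nonneg _)]
                  exact pow_le_pow_left₀ (norm_nonneg _) ((norm_sub_le _ _).trans (by
                    linarith [norm_gradient_le hL (y + t • e), norm_gradient_le hL y])) 2)
            · simp only [Gf, indicator_of_mem hx]
              rw [← sq_abs]
              exact pow_le_pow_left₀ (abs_nonneg _)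
                (PiLp.norm_apply_le (∇ v (x + t • e) - ∇ v x) j) 2
        _ ≤ _ := hcac _ hth
    have he : ‖t • e‖ ^ 2 = t ^ 2 := by
      simp [e, norm_smul, sq_abs]
    rw [he] at hsq
    have h2 : (t⁻¹) ^ 2 * (C * t ^ 2) = C := by field_simp
    simp only [mul_pow, integral_const_mul]
    exact le_trans (mul_le_mul_of_nonneg_left hsq (sq_nonneg _)) (le_of_eq h2)
  -- pass to the limit
  have hPc : ContDiff ℝ 1 (fun x => P x j) := by
    simp only [P, gradient_apply]
    exact differentiable_pd (hsm.of_le (WithTop.coe_le_coe.2 le_top)) j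
  obtain ⟨R, hR⟩ := hK.isBounded.subset_closedBall (0 : E d)
  obtain ⟨M, hM⟩ := hPc.contDiffOn.exists_lipschitzOnWith (n := 1) (by norm_num)
    (convex_closedBall (0 : E d) (|R| + 1)) (isCompact_closedBall _ _)
  have hpos : ∀ᶠ t : ℝ in 𝓝[≠] 0, t ≠ 0 ∧ |t| < min h0 1 :=
    Filter.inter_mem self_mem_nhdsWithin (mem_nhdsWithin_of_mem_nhds
      (IsOpen.mem_nhds (isOpen_lt continuous_abs continuous_const)
        (show |(0 : ℝ)| < min h0 1 by rw [abs_zero]; exact lt_min hh0 one_pos)))
  have he1 : ‖e‖ = 1 := by simp [e]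
  have : IsFiniteMeasure (volume.restrict K) := isFiniteMeasure_restrict.2 hK.measure_lt_top.ne
  have hlim : Tendsto (fun t : ℝ => ∫ x in K, (t⁻¹ * (P (x + t • e) j - P x j)) ^ 2) (𝓝[≠] 0)
      (𝓝 (∫ x in K, pd i (pd j (mol η v)) x ^ 2)) := by
    refine tendsto_integral_filter_of_dominated_convergence (fun _ => (M : ℝ) ^ 2)
      (Eventually.of_forall fun t => ?_) ?_ (integrable_const _)
      (Eventually.of_forall fun x => (hq x).pow 2)
    · exact (((hPc.continuous.comp (continuous_add_const (t • e))).sub hPc.continuous).const_mul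
        (t⁻¹) |>.pow 2).aestronglyMeasurable
    · filter_upwards [hpos] with t ht
      refine (ae_restrict_iff' hK.measurableSet).2 (Eventually.of_forall fun x hx => ?_)
      have hx1 : ‖x‖ ≤ |R| := le_trans (by simpa using hR hx) (le_abs_self R)
      have ht1 : ‖t • e‖ ≤ 1 := by
        rw [norm_smul, he1, mul_one, Real.norm_eq_abs]; linarith [ht.2, min_le_right h0 1]
      have hl := hM.norm_sub_le (x := x + t • e) (by
          rw [mem_closedBall, dist_zero_right]; linarith [norm_add_le x (t • e)])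
        (y := x) (by rw [mem_closedBall, dist_zero_right]; linarith)
      rw [add_sub_cancel_left, norm_smul, he1, mul_one, Real.norm_eq_abs,
        Real.norm_eq_abs] at hl
      rw [Real.norm_eq_abs, abs_of_nonneg (sq_nonneg _), mul_pow]
      have h3 : (P (x + t • e) j - P x j) ^ 2 ≤ ((M : ℝ) * |t|) ^ 2 := by
        rw [← sq_abs]; exact pow_le_pow_left₀ (abs_nonneg _) hl 2
      calc (t⁻¹) ^ 2 * (P (x + t • e) j - P x j) ^ 2 ≤ (t⁻¹) ^ 2 * ((M : ℝ) * |t|) ^ 2 :=
            mul_le_mul_of_nonneg_left h3 (sq_nonneg _)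
        _ = (M : ℝ) ^ 2 := by
            rw [mul_pow, sq_abs]; field_simp [ht.1]
  refine le_of_tendsto hlim ?_
  filter_upwards [hpos] with t ht
  exact hfin t ht.1 (by
    rw [norm_smul, he1, mul_one, Real.norm_eq_abs]; linarith [ht.2, min_le_left h0 1])

end Vale.Agent.P080.C1.Approx
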