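import Vale.Agent.P080.C1.Approx.Minimiser
import Mathlib.MeasureTheory.Measure.SeparableMeasure
import Mathlib.Analysis.InnerProductSpace.Dual

/-!
# `L²` facts about mollification and bounded sequences
-/

namespace Vale.Agent.P080.C1.Approx

open scoped ContDiff Topology RealInnerProductSpace NNReal ENNReal Gradient
open Set Filter Metric MeasureTheory Vale.Agent.P080

variable {d : ℕ}

lemma integrable_mol (r : ℝ) {f : E d → ℝ} (hf : Integrable f) : Integrable (mol r f) := by
  rw [mol_eq_convolution]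
  exact Integrable.integrable_convolution _ (bump d r).integrable_normed hf

lemma integral_mol (r : ℝ) {f : E d → ℝ} (hf : Integrable f) : ∫ x, mol r f x = ∫ x, f x := by
  rw [mol_eq_convolution, integral_convolution _ (bump d r).integrable_normed hf]
  simp [ContDiffBump.integral_normed]

lemma integrable_wgt_mul (r : ℝ) {f : E d → ℝ} (hf : Integrable f) (x : E d) :
    Integrable fun h => wgt d r h * f (x - h) := by
  obtain ⟨B, hB⟩ := (wgt_continuous (d := d) r).norm.bounded_above_of_compact_support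
    (wgt_compact r).norm
  refine (hf.comp_sub_left x).bdd_mul (c := B) (wgt_continuous r).aestronglyMeasurable
    (Eventually.of_forall fun h => ?_)
  simpa using hB h

lemma mol_mono (r : ℝ) {f g : E d → ℝ} (hf : Integrable f) (hg : Integrable g) {x : E d}
    (h : ∀ y, f y ≤ g y) : mol r f x ≤ mol r g x := by
  simp only [mol, smul_eq_mul]
  exact integral_mono (integrable_wgt_mul r hf x) (integrable_wgt_mul r hg x) fun y =>
    mul_le_mul_of_nonneg_left (h _) (wgt_nonneg r y)

/-- Jensen for squares -/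
lemma sq_mol_le (r : ℝ) {f : E d → ℝ} (hf : Integrable f) (hf2 : Integrable fun y => f y ^ 2)
    (x : E d) : mol r f x ^ 2 ≤ mol r (fun y => f y ^ 2) x := by
  set a := mol r f x with ha
  have hw : Integrable (wgt d r) := (bump d r).integrable_normed
  have h1 : Integrable fun h => 2 * a * (wgt d r h * f (x - h)) - a ^ 2 * wgt d r h :=
    ((integrable_wgt_mul r hf x).const_mul _).sub (hw.const_mul _)
  have key : ∫ h, (2 * a * (wgt d r h * f (x - h)) - a ^ 2 * wgt d r h)
      ≤ ∫ h, wgt d r h * f (x - h) ^ 2 := by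
    refine integral_mono h1 (integrable_wgt_mul r hf2 x) fun h => ?_
    have := mul_nonneg (wgt_nonneg (d := d) r h) (sq_nonneg (f (x - h) - a))
    nlinarith
  rw [integral_sub ((integrable_wgt_mul r hf x).const_mul _) (hw.const_mul _), integral_const_mul,
    integral_const_mul, wgt_integral] at key
  have e : ∫ h, wgt d r h * f (x - h) = a := rfl
  rw [e] at key
  change a ^ 2 ≤ ∫ h, wgt d r h * f (x - h) ^ 2
  linarith

/-- Mollifications converge in `L²`. -/
lemma tendsto_mol_L2 {g : E d → ℝ} (hg : Integrable g) (hg2 : Integrable fun y => g y ^ 2) :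
    Tendsto (fun r => ∫ x, (mol r g x - g x) ^ 2) (𝓝[>] 0) (𝓝 0) := by
  have hM : ∀ r, Integrable fun x => mol r g x ^ 2 := fun r => by
    refine (integrable_mol r hg2).mono' ((integrable_mol r hg).aestronglyMeasurable.pow 2)
      (Eventually.of_forall fun x => ?_)
    rw [Real.norm_eq_abs, abs_of_nonneg (sq_nonneg _)]
    exact sq_mol_le r hg hg2 x
  have hD : ∀ r, Integrable fun x => (mol r g x - g x) ^ 2 := fun r => by
    refine (((hM r).const_mul 2).add (hg2.const_mul 2)).mono'
      (((integrable_mol r hg).sub hg).aestronglyMeasurable.pow 2)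
      (Eventually.of_forall fun x => ?_)
    rw [Real.norm_eq_abs, abs_of_nonneg (sq_nonneg _)]
    simp only [Pi.add_apply]
    nlinarith [sq_nonneg (mol r g x + g x)]
  rw [tendsto_iff_seq_tendsto]
  intro s hs
  set F : ℕ → E d → ℝ := fun n x =>
    2 * mol (s n) g x ^ 2 + 2 * g x ^ 2 - (mol (s n) g x - g x) ^ 2 with hF
  have hF0 : ∀ n x, 0 ≤ F n x := fun n x => by
    simp only [hF]; nlinarith [sq_nonneg (mol (s n) g x + g x)]
  have hFi : ∀ n, Integrable (F n) := fun n =>
    (((hM (s n)).const_mul 2).add (hg2.const_mul 2)).sub (hD (s n))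
  set G := ∫ x, g x ^ 2 with hG
  have hFle : ∀ n, (∫ x, F n x) + ∫ x, (mol (s n) g x - g x) ^ 2 ≤ 4 * G := fun n => by
    have h1 : ∫ x, mol (s n) g x ^ 2 ≤ G := by
      rw [hG, ← integral_mol (s n) hg2]
      exact integral_mono (hM _) (integrable_mol _ hg2) fun x => sq_mol_le _ hg hg2 x
    have h2 : (∫ x, F n x) + ∫ x, (mol (s n) g x - g x) ^ 2
        = 2 * (∫ x, mol (s n) g x ^ 2) + 2 * G := by
      rw [← integral_add (hFi n) (hD _)]
      simp only [hF, sub_add_cancel]
      rw [integral_add ((hM _).const_mul 2) (hg2.const_mul 2), integral_const_mul,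
        integral_const_mul]
    linarith
  have hae : ∀ᵐ x, Tendsto (fun n => F n x) atTop (𝓝 (4 * g x ^ 2)) := by
    filter_upwards [ae_tendsto_mol hg.locallyIntegrable] with x hx
    have h := hx.comp hs
    have hh := (((h.pow 2).const_mul 2).add_const (2 * g x ^ 2)).sub ((h.sub_const (g x)).pow 2)
    have e : 2 * g x ^ 2 + 2 * g x ^ 2 - (g x - g x) ^ 2 = 4 * g x ^ 2 := by ring
    rw [e] at hh
    exact hh
  have hlow : ENNReal.ofReal (4 * G)
      ≤ liminf (fun n => ENNReal.ofReal (∫ x, F n x)) atTop := by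
    calc ENNReal.ofReal (4 * G) = ∫⁻ x, ENNReal.ofReal (4 * g x ^ 2) := by
          rw [hG, ← integral_const_mul, ofReal_integral_eq_lintegral_ofReal (hg2.const_mul 4)
            (Eventually.of_forall fun x => by positivity)]
      _ = ∫⁻ x, liminf (fun n => ENNReal.ofReal (F n x)) atTop := by
          refine lintegral_congr_ae ?_
          filter_upwards [hae] with x hx using (ENNReal.tendsto_ofReal hx).liminf_eq.symm
      _ ≤ liminf (fun n => ∫⁻ x, ENNReal.ofReal (F n x)) atTop :=
          lintegral_liminf_le' fun n => (hFi n).aemeasurable.ennreal_ofReal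
      _ = _ := by simp only [ofReal_integral_eq_lintegral_ofReal (hFi _) (Eventually.of_forall (hF0 _))]
  refine tendsto_order.2 ⟨fun b hb => Eventually.of_forall fun n =>
    lt_of_lt_of_le hb (integral_nonneg fun x => sq_nonneg _), fun b hb => ?_⟩
  rcases le_or_gt (4 * G) (b / 2) with hsmall | hbig
  · refine Eventually.of_forall fun n => ?_
    have : 0 ≤ ∫ x, F n x := integral_nonneg fun x => hF0 n x
    simp only [Function.comp_apply]
    linarith [hFle n]
  · have hlt : ENNReal.ofReal (4 * G - b / 2)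
        < liminf (fun n => ENNReal.ofReal (∫ x, F n x)) atTop :=
      lt_of_lt_of_le ((ENNReal.ofReal_lt_ofReal_iff (by linarith)).2 (by linarith)) hlow
    filter_upwards [eventually_lt_of_lt_liminf hlt] with n hn
    rw [ENNReal.ofReal_lt_ofReal_iff_of_nonneg (by linarith)] at hn
    simp only [Function.comp_apply]
    linarith [hFle n]

/-- Weak sequential compactness of bounded sets in `L²`, against square-integrable tests. -/
lemma exists_weak_limit {K : Set (E d)} (hK : IsCompact K) {q : ℕ → E d → ℝ}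
    (hq : ∀ n, MemLp (q n) 2 (volume.restrict K)) {C : ℝ}
    (hb : ∀ n, ∫ x in K, q n x ^ 2 ≤ C) :
    ∃ (φ : ℕ → ℕ) (g : E d → ℝ), StrictMono φ ∧ MemLp g 2 (volume.restrict K) ∧
      ∀ f, MemLp f 2 (volume.restrict K) →
        Tendsto (fun n => ∫ x in K, q (φ n) x * f x) atTop (𝓝 (∫ x in K, g x * f x)) := by
  have : IsFiniteMeasure (volume.restrict K) :=
    isFiniteMeasure_restrict.2 hK.measure_lt_top.ne
  have : Fact ((2 : ℝ≥0∞) ≠ ⊤) := ⟨by norm_num⟩
  set H := Lp ℝ 2 (volume.restrict K)
  have inner_eq : ∀ {a b : E d → ℝ} (ha : MemLp a 2 (volume.restrict K))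
      (hb : MemLp b 2 (volume.restrict K)),
      ⟪(ha.toLp a : H), (hb.toLp b : H)⟫ = ∫ x in K, a x * b x := by
    intro a b ha hb
    rw [L2.inner_def]
    refine integral_congr_ae ?_
    filter_upwards [ha.coeFn_toLp, hb.coeFn_toLp] with x h1 h2
    rw [h1, h2, RCLike.inner_apply, conj_trivial, mul_comm]
  set p : ℕ → H := fun n => (hq n).toLp (q n)
  set R := Real.sqrt (max C 0)
  have hp : ∀ n, ‖p n‖ ≤ R := fun n => by
    rw [← Real.sqrt_sq (norm_nonneg (p n))]
    refine Real.sqrt_le_sqrt ?_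
    rw [← real_inner_self_eq_norm_sq, inner_eq (hq n) (hq n)]
    simp only [← sq]
    exact (hb n).trans (le_max_left _ _)
  set D := TopologicalSpace.denseSeq H
  have hmem : ∀ n, (fun i => ⟪p n, D i⟫) ∈ Set.pi univ (fun i => Icc (-(R * ‖D i‖)) (R * ‖D i‖)) :=
    fun n i _ => abs_le.1 ((abs_real_inner_le_norm _ _).trans
      (mul_le_mul_of_nonneg_right (hp n) (norm_nonneg _)))
  obtain ⟨l, -, φ, hφ, hlim⟩ := (isCompact_univ_pi fun i => isCompact_Icc).tendsto_subseq hmem
  rw [tendsto_pi_nhds] at hlim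
  have hex : ∀ f : H, ∃ c, Tendsto (fun n => ⟪p (φ n), f⟫) atTop (𝓝 c) := by
    intro f
    refine cauchySeq_tendsto_of_complete (Metric.cauchySeq_iff'.2 fun η hη => ?_)
    have hR : 0 ≤ R := Real.sqrt_nonneg _
    obtain ⟨δ, hδ, hδ'⟩ : ∃ δ > 0, R * δ < η / 3 := by
      refine ⟨η / (3 * (R + 1)), by positivity, ?_⟩
      rw [← mul_div_assoc, div_lt_div_iff₀ (by positivity) (by norm_num)]
      nlinarith
    obtain ⟨i, hi⟩ : ∃ i, dist f (D i) < δ :=
      (TopologicalSpace.denseRange_denseSeq H).exists_dist_lt f hδ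
    obtain ⟨N, hN⟩ := Metric.cauchySeq_iff'.1 (hlim i).cauchySeq (η / 3) (by linarith)
    refine ⟨N, fun n hn => ?_⟩
    have h1 : ∀ m, |⟪p (φ m), f⟫ - ⟪p (φ m), D i⟫| ≤ R * δ := fun m => by
      rw [← inner_sub_right]
      refine (abs_real_inner_le_norm _ _).trans (mul_le_mul (hp _) ?_ (norm_nonneg _) hR)
      rw [← dist_eq_norm]; exact hi.le
    have h5 := hN n hn
    simp only [Function.comp_apply, Real.dist_eq] at h5 ⊢
    have a := abs_le.1 (h1 n)
    have b := abs_le.1 (h1 N)
    have c := abs_lt.1 h5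
    exact abs_lt.2 ⟨by linarith, by linarith⟩
  choose c hc using hex
  set ℓ : H →ₗ[ℝ] ℝ :=
    { toFun := c
      map_add' := fun a b => tendsto_nhds_unique (hc _)
        (((hc a).add (hc b)).congr fun n => (inner_add_right _ _ _).symm)
      map_smul' := fun r a => tendsto_nhds_unique (hc _)
        (((hc a).const_mul r).congr fun n => by rw [inner_smul_right]) }
  set L : StrongDual ℝ H := ℓ.mkContinuous R fun f =>
    le_of_tendsto (hc f).norm (Eventually.of_forall fun n =>
      ((abs_real_inner_le_norm _ _).trans (mul_le_mul_of_nonneg_right (hp _) (norm_nonneg _))))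
  set g : H := (InnerProductSpace.toDual ℝ H).symm L
  refine ⟨φ, g, hφ, Lp.memLp g, fun f hf => ?_⟩
  have h1 := hc (hf.toLp f)
  have h2 : c (hf.toLp f) = ⟪g, hf.toLp f⟫ := by
    rw [InnerProductSpace.toDual_symm_apply]; rfl
  have h3 : ⟪g, hf.toLp f⟫ = ∫ x in K, g x * f x := by
    rw [← inner_eq (Lp.memLp g) hf, Lp.toLp_coeFn]
  rw [← h3, ← h2]
  exact h1.congr fun n => inner_eq (hq _) hf

end Vale.Agent.P080.C1.Approx
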