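import Vale.Agent.P080.C1.Basic
import Vale.Agent.P080.C1.Approx.Basic

/-!
# The fixed mollifier `moll` of `C1.Basic` is `mol`
-/

namespace Vale.Agent.P080.C1.Approx

open scoped ContDiff Topology RealInnerProductSpace NNReal ENNReal Gradient
open Set Filter Metric MeasureTheory Vale.Agent.P080

lemma bump_apply {η : ℝ} (hη : 0 < η) (y : E3) : bump 3 η (η • y) = bump0 y := by
  have h : bump 3 η = ⟨η / 2, η, half_pos hη, half_lt_self hη⟩ := by simp [bump, hη]
  rw [h, ContDiffBump.apply, ContDiffBump.apply]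
  simp only [bump0, sub_zero, smul_smul]
  congr 1
  · field_simp
  · congr 1; field_simp

lemma integral_bump {η : ℝ} (hη : 0 < η) :
    ∫ y, bump 3 η y ∂volume = η ^ 3 * ∫ y, bump0 y ∂volume := by
  have := Measure.integral_comp_smul_of_nonneg (μ := (volume : Measure E3))
    (fun y => bump 3 η y) η (hR := hη.le)
  simp only [bump_apply hη, finrank_euclideanSpace_fin, smul_eq_mul] at this
  rw [this]; field_simp

lemma moll_eq_mol {η : ℝ} (hη : 0 < η) (v : E3 → ℝ) : moll η v = mol η v := by
  funext x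
  have h := Measure.integral_comp_smul_of_nonneg (μ := (volume : Measure E3))
    (fun h => wgt 3 η h • v (x - h)) η (hR := hη.le)
  simp only [finrank_euclideanSpace_fin, smul_eq_mul] at h
  have h2 : ∀ y, wgt 3 η (η • y) * v (x - η • y)
      = (η ^ 3)⁻¹ * (bump0.normed volume y * v (x - η • y)) := fun y => by
    rw [wgt, ContDiffBump.normed_def, ContDiffBump.normed_def, bump_apply hη, integral_bump hη]
    field_simp
  simp only [h2, integral_const_mul] at h
  have h3 : (η ^ 3)⁻¹ ≠ 0 := by positivity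
  exact mul_left_cancel₀ h3 h

lemma contDiff_moll {η : ℝ} (hη : 0 < η) {v : E3 → ℝ} {K : ℝ≥0} (hv : LipschitzWith K v) :
    ContDiff ℝ ∞ (moll η v) := by
  rw [moll_eq_mol hη]; exact contDiff_mol η hv.continuous.locallyIntegrable

lemma lipschitzWith_moll {η : ℝ} (hη : 0 < η) {v : E3 → ℝ} {K : ℝ≥0} (hv : LipschitzWith K v) :
    LipschitzWith K (moll η v) := by
  rw [moll_eq_mol hη]; exact lipschitzWith_mol η hv

lemma abs_moll_sub_le {η : ℝ} (hη : 0 < η) {v : E3 → ℝ} {K : ℝ≥0} (hv : LipschitzWith K v)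
    (x : E3) : |moll η v x - v x| ≤ K * η := by
  rw [moll_eq_mol hη]; exact abs_mol_sub_le hη hv x

/-- the gradient of the mollification is the mollified gradient -/
lemma pd_moll {η : ℝ} (hη : 0 < η) {v : E3 → ℝ} {K : ℝ≥0} (hv : LipschitzWith K v) (i : Fin 3)
    (x : E3) : pd i (moll η v) x = moll η (pd i v) x := by
  rw [moll_eq_mol hη, moll_eq_mol hη, pd, ← inner_gradient, gradient_mol η hv x,
    real_inner_comm]
  unfold mol
  rw [← integral_inner (integrable_wgt_smul η (measurable_gradient v).aestronglyMeasurable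
    (norm_gradient_le hv) x)]
  refine integral_congr_ae (Eventually.of_forall fun h => ?_)
  simp only [pd, real_inner_smul_right, smul_eq_mul]
  rw [real_inner_comm, inner_gradient]

/-- Jensen: a convex function of the mollified gradient is at most the mollified function -/
lemma jensen_moll {η : ℝ} (hη : 0 < η) {v : E3 → ℝ} {K : ℝ≥0} (hv : LipschitzWith K v)
    {Φ : E3 → ℝ} (hΦc : Continuous Φ) {D : E3 → E3} (hΦ : ∀ p q, Φ p + ⟪D p, q - p⟫ ≤ Φ q)
    (x : E3) : Φ (∇ (moll η v) x) ≤ moll η (fun y => Φ (∇ v y)) x := by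
  rw [moll_eq_mol hη, moll_eq_mol hη, gradient_mol η hv x]
  exact convex_mol_le η (measurable_gradient v).aestronglyMeasurable (norm_gradient_le hv) hΦc hΦ x

end Vale.Agent.P080.C1.Approx
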