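import Vale.Agent.P080.C1.Approx.Residual
import Vale.Agent.P080.C1.Approx.Moll

/-!
# Approximants: `Sol0` solutions with prescribed data and slopes
-/

namespace Vale.Agent.P080.C1.Approx

open scoped ContDiff Topology RealInnerProductSpace NNReal ENNReal Gradient
open Set Filter Metric MeasureTheory Vale.Agent.P080

/-- Lipschitz weak solutions are `Sol0`. -/
theorem sol0_of_weak {ε : ℝ} {U : Set E3} {v : E3 → ℝ} {L : ℝ≥0} (hε : 0 < ε) (hU : IsOpen U)
    (hv : LipschitzWith L v) (hw : Weak ε U v) : Sol0 ε U v where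
  isOpen := hU
  pos := hε
  lip := ⟨L, hv⟩
  hess K hK hKU := by
    obtain ⟨C, hC, hev⟩ := hess_bound hε hU hv hw hK hKU
    refine ⟨9 * C, ?_⟩
    filter_upwards [hev, self_mem_nhdsWithin] with η h (hη : 0 < η)
    rw [moll_eq_mol hη]
    have hsm : ContDiff ℝ 2 (mol η v) :=
      (contDiff_mol η hv.continuous.locallyIntegrable).of_le (WithTop.coe_le_coe.2 le_top)
    have hi : ∀ i j, IntegrableOn (fun x => pd2 i j (mol η v) x ^ 2) K := fun i j =>
      ((continuous_pd2 hsm i j).pow 2).continuousOn.integrableOn_compact hK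
    simp only [hessSq]
    rw [integral_finsetSum _ fun i _ => integrable_finsetSum _ fun j _ => hi i j]
    simp only [integral_finsetSum _ fun j _ => hi _ j]
    calc ∑ i, ∑ j, ∫ x in K, pd2 i j (mol η v) x ^ 2 ≤ ∑ _i : Fin 3, ∑ _j : Fin 3, C :=
          Finset.sum_le_sum fun i _ => Finset.sum_le_sum fun j _ => h i j
      _ = 9 * C := by simp; ring
  res_tendsto K hK hKU := by
    refine (tendsto_resG hε hU hv hw hK hKU).congr' ?_
    filter_upwards [self_mem_nhdsWithin] with η (hη : 0 < η)
    rw [moll_eq_mol hη]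
    rfl

/-- `Sol0` restricts to open subsets. -/
theorem _root_.Vale.Agent.P080.C1.Sol0.mono {ε : ℝ} {U V : Set E3} {v : E3 → ℝ} (h : Sol0 ε U v) (hV : IsOpen V)
    (hVU : V ⊆ U) : Sol0 ε V v :=
  ⟨hV, h.pos, h.lip, fun K hK hKV => h.hess K hK (hKV.trans hVU),
    fun K hK hKV => h.res_tendsto K hK (hKV.trans hVU)⟩

/-- `Sol0` solves the weak equation. -/
theorem weak_of_sol0 {ε : ℝ} {U : Set E3} {v : E3 → ℝ} (h : Sol0 ε U v) : Weak ε U v := by
  intro ψ Lψ hψ hψc hψU
  obtain ⟨L, hL⟩ := h.lip
  have hε := h.pos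
  set S := tsupport ψ
  have hS : IsCompact S := hψc
  obtain ⟨Bψ, hBψ⟩ := hψ.continuous.bounded_above_of_compact_support hψc
  have hBψ0 : 0 ≤ Bψ := (norm_nonneg _).trans (hBψ 0)
  set W := Real.exp ((L : ℝ) ^ 2 / (2 * ε)) / ε ^ 2
  have hW0 : 0 ≤ W := by positivity
  have hgm : ∀ η x, ‖∇ (mol η v) x‖ ≤ L := fun η x => norm_gradient_le (lipschitzWith_mol η hL) x
  have hlimL : Tendsto (fun η => ∫ x, ⟪dPhi ε (∇ (mol η v) x), ∇ ψ x⟫) (𝓝[>] 0)
      (𝓝 (∫ x, ⟪dPhi ε (∇ v x), ∇ ψ x⟫)) := by
    obtain ⟨C, hC0, hC⟩ := dPhi_bound (d := 3) ε L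
    refine tendsto_integral_filter_of_dominated_convergence
      (S.indicator fun _ => C * Lψ)
      (Eventually.of_forall fun η => (continuous_inner.measurable.comp
        (((contDiff_dPhi ε).continuous.measurable.comp (measurable_gradient _)).prodMk
          (measurable_gradient ψ))).aestronglyMeasurable)
      (Eventually.of_forall fun η => Eventually.of_forall fun x => ?_)
      ((integrableOn_const hS.measure_lt_top.ne).integrable_indicator hS.measurableSet) ?_
    · by_cases hx : x ∈ S
      · rw [indicator_of_mem hx]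
        exact (norm_inner_le_norm _ _).trans
          (mul_le_mul (hC _ (hgm η x)) (norm_gradient_le hψ x) (norm_nonneg _) hC0)
      · rw [indicator_of_notMem hx, gradient_zero_off_tsupport hx, inner_zero_right, norm_zero]
    · filter_upwards [ae_tendsto_mol (F := E3) (locallyIntegrable_of_bounded
        (measurable_gradient v).aestronglyMeasurable (norm_gradient_le hL))] with x hx
      exact (((contDiff_dPhi ε).continuous.tendsto _).comp
        (hx.congr fun η => (gradient_mol η hL x).symm)).inner tendsto_const_nhds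
  have hlimN : Tendsto (fun η => ∫ x, ⟪dPhi ε (∇ (mol η v) x), ∇ ψ x⟫) (𝓝[>] 0) (𝓝 0) := by
    have : IsFiniteMeasure (volume.restrict S) := isFiniteMeasure_restrict.2 hS.measure_lt_top.ne
    rw [Metric.tendsto_nhds]
    intro b hb
    set δ := b / (Bψ * W * volume.real S + 1)
    have hδ : 0 < δ := by positivity
    have hev : ∀ᶠ η in 𝓝[>] (0 : ℝ), Bψ * W * (∫ x in S, res ε (moll η v) x ^ 2) < δ * b := by
      have h1 := (h.res_tendsto S hS hψU).const_mul (Bψ * W)
      rw [mul_zero] at h1
      exact h1.eventually (eventually_lt_nhds (mul_pos hδ hb))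
    filter_upwards [hev, self_mem_nhdsWithin] with η hη (hη0 : 0 < η)
    rw [moll_eq_mol hη0] at hη
    have hsm : ContDiff ℝ 2 (mol η v) :=
      (contDiff_mol η hL.continuous.locallyIntegrable).of_le (WithTop.coe_le_coe.2 le_top)
    have hFi : ∀ i, Integrable fun y => flux ε (mol η v) i y * pd i ψ y := fun i => by
      obtain ⟨C, hC⟩ := hS.exists_bound_of_continuousOn
        (contDiff_flux ε hsm i).continuous.continuousOn
      refine integrable_of_bound (C := C * Lψ) (((contDiff_flux ε hsm i).continuous.measurable.mul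
        (measurable_pd ψ i))).aestronglyMeasurable hS (fun y hy => ?_) fun y hy => ?_
      · rw [norm_mul]
        exact mul_le_mul (hC y hy) (abs_pd_le hψ i y) (norm_nonneg _)
          ((norm_nonneg _).trans (hC y hy))
      · rw [pd, fderiv_of_notMem_tsupport ℝ hy]; simp
    have hDi : ∀ i, Integrable fun y => pd i (flux ε (mol η v) i) y * ψ y := fun i => by
      have hc : Continuous fun y => pd i (flux ε (mol η v) i) y := by
        unfold pd
        exact ((contDiff_flux ε hsm i).continuous_fderiv (by norm_num)).clm_apply continuous_const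
      exact (hc.mul hψ.continuous).integrable_of_hasCompactSupport hψc.mul_left
    have hU' : ∫ x, ⟪dPhi ε (∇ (mol η v) x), ∇ ψ x⟫
        = -∫ x, ψ x * (Real.exp (‖∇ (mol η v) x‖ ^ 2 / (2 * ε)) / ε ^ 2 * res ε (mol η v) x) := by
      simp only [sum_mul_pd_eq_inner, dPhi_gradient]
      rw [integral_finsetSum _ fun i _ => hFi i]
      simp only [integral_mul_pd hψ hψc (contDiff_flux ε hsm _)]
      rw [Finset.sum_neg_distrib, ← integral_finsetSum _ fun i _ => hDi i, neg_inj]
      refine integral_congr_ae (Eventually.of_forall fun x => ?_)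
      simp only [← Finset.sum_mul, sum_pd_flux hε.ne' hsm, res, trH, pd2,
        ← sum_sq (∇ (mol η v) x), gradient_apply]
      ring
    have hres : Continuous fun x => res ε (mol η v) x :=
      (continuous_const.mul (continuous_finsetSum _ fun i _ => continuous_pd2 hsm i i)).add
        (continuous_infLap hsm)
    have hsqi : IntegrableOn (fun x => res ε (mol η v) x ^ 2) S :=
      (hres.pow 2).continuousOn.integrableOn_compact hS
    rw [Real.dist_eq, sub_zero, hU', abs_neg,
      ← setIntegral_eq_integral_of_forall_compl_eq_zero (s := S)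
        fun x hx => by simp [image_eq_zero_of_notMem_tsupport hx],
      ← Real.norm_eq_abs]
    refine lt_of_le_of_lt (norm_integral_le_of_norm_le
      (((integrable_const (δ / 2)).add (hsqi.div_const (2 * δ))).const_mul (Bψ * W))
      (Eventually.of_forall fun x => ?_)) ?_
    · rw [norm_mul, norm_mul, mul_assoc]
      refine mul_le_mul (hBψ x) (mul_le_mul ?_ ?_ (norm_nonneg _) hW0) (by positivity) hBψ0
      · rw [Real.norm_eq_abs, abs_of_nonneg (by positivity)]
        simp only [W]
        have := hgm η x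
        gcongr
      · simp only [Pi.add_apply, Real.norm_eq_abs]
        have h0 : 0 ≤ (|res ε (mol η v) x| - δ) ^ 2 / (2 * δ) := by positivity
        have e : (|res ε (mol η v) x| - δ) ^ 2 / (2 * δ)
            = δ / 2 + res ε (mol η v) x ^ 2 / (2 * δ) - |res ε (mol η v) x| := by
          rw [sub_sq, sq_abs]; field_simp; ring
        linarith
    simp only [Pi.add_apply]
    rw [integral_const_mul, integral_add (integrable_const _) (hsqi.div_const _),
      setIntegral_const, smul_eq_mul, integral_div]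
    have h1 : Bψ * W * (volume.real S * (δ / 2)) < b / 2 := by
      have e : δ * (Bψ * W * volume.real S + 1) = b := by simp only [δ]; field_simp
      nlinarith
    have h2 : Bψ * W * ((∫ x in S, res ε (mol η v) x ^ 2) / (2 * δ)) < b / 2 := by
      rw [mul_div_assoc', div_lt_iff₀ (by positivity)]
      linarith
    rw [mul_add]
    linarith
  exact tendsto_nhds_unique hlimL hlimN

/-- Dirichlet data satisfying a bounded slope condition with slopes in `slopes`. -/
structure Data (d : ℕ) where
  D : Set (E d)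
  G : E d → ℝ
  L : ℝ≥0
  slopes : Set (E d)
  isOpen : IsOpen D
  bdd : Bornology.IsBounded D
  lipG : LipschitzWith L G
  slope_le : ∀ k ∈ slopes, ‖k‖ ≤ L
  bsc : ∀ y ∈ frontier D, ∃ k1 ∈ slopes, ∃ k2 ∈ slopes, ∀ z ∈ frontier D,
    G y + ⟪k2, z - y⟫ ≤ G z ∧ G z ≤ G y + ⟪k1, z - y⟫

/-- a compactly supported Lipschitz function agreeing with `G` on the closure of `D` -/
lemma exists_conf (P : Data 3) :
    ∃ C : Conf 3, C.D = P.D ∧ C.K = P.L + 2 ∧ LipschitzWith (P.L + 1) C.G ∧
      ∀ x ∈ closure P.D, C.G x = P.G x := by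
  obtain ⟨R, hR⟩ := P.bdd.isCompact_closure.isBounded.subset_closedBall (0 : E 3)
  obtain ⟨B0, hB0⟩ := P.bdd.isCompact_closure.exists_bound_of_continuousOn
    P.lipG.continuous.continuousOn
  set B := max B0 0
  have hB : 0 ≤ B := le_max_right _ _
  set M : ℝ≥0 := P.L + 1
  have hM : (0 : ℝ) < M := by simp only [M, NNReal.coe_add, NNReal.coe_one]; positivity
  set cap : E 3 → ℝ := fun x => min B (max 0 (B - M * (‖x‖ - R)))
  have hcap : LipschitzWith M cap := by
    have h0 : LipschitzWith M fun x : E 3 => B - M * (‖x‖ - R) := by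
      refine LipschitzWith.of_dist_le_mul fun a b => ?_
      rw [Real.dist_eq, dist_eq_norm]
      have e : B - M * (‖a‖ - R) - (B - M * (‖b‖ - R)) = (M : ℝ) * (‖b‖ - ‖a‖) := by ring
      rw [e, abs_mul, abs_of_pos hM]
      refine mul_le_mul_of_nonneg_left ?_ hM.le
      have := abs_norm_sub_norm_le b a
      rwa [norm_sub_rev] at this
    exact (h0.const_max 0).const_min B
  set g : E 3 → ℝ := fun x => max (min (P.G x) (cap x)) (-cap x)
  have hg : LipschitzWith M g := by
    simpa using ((P.lipG.weaken (by simp [M] : P.L ≤ M)).min hcap).max hcap.neg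
  have hcap0 : ∀ x, |R| + B / M ≤ ‖x‖ → cap x = 0 := fun x hx => by
    have h1 : B / M ≤ ‖x‖ - R := by linarith [le_abs_self R]
    rw [div_le_iff₀ hM] at h1
    simp only [cap]
    rw [max_eq_left (by linarith), min_eq_right hB]
  have hsupp : HasCompactSupport g := by
    refine HasCompactSupport.intro (isCompact_closedBall (0 : E 3) (|R| + B / M)) fun x hx => ?_
    rw [mem_closedBall, dist_zero_right, not_le] at hx
    simp [g, hcap0 x hx.le]
  refine ⟨⟨P.D, g, P.L + 2, P.isOpen, P.bdd, hg.weaken ?_, hsupp,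
    (|R| + 1) • EuclideanSpace.single 0 1, fun h => ?_⟩, rfl, rfl, hg, fun x hx => ?_⟩
  · simp only [M]; exact add_le_add le_rfl one_le_two
  · have := hR (subset_closure h)
    rw [mem_closedBall, dist_zero_right, norm_smul, PiLp.norm_single, norm_one, mul_one,
      Real.norm_eq_abs, abs_of_pos (by positivity)] at this
    linarith [le_abs_self R]
  · have hxR : ‖x‖ ≤ R := by simpa using hR hx
    have hc : cap x = B := by
      simp only [cap]
      rw [min_eq_left]
      have : (M : ℝ) * (‖x‖ - R) ≤ 0 := mul_nonpos_of_nonneg_of_nonpos hM.le (by linarith)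
      exact le_trans (by linarith) (le_max_right _ _)
    have hu := abs_le.1 ((hB0 x hx).trans (le_max_left B0 0))
    simp only [g, hc]
    rw [min_eq_left hu.2, max_eq_left hu.1]

/-- The approximants. -/
theorem exists_approx (P : Data 3) : ∃ v : ℝ → E3 → ℝ,
    (∀ ε, 0 < ε → Sol0 ε P.D (v ε) ∧ LipschitzOnWith P.L (v ε) (closure P.D) ∧
      (∀ x ∈ frontier P.D, v ε x = P.G x) ∧
      ∀ (h : E3) (c : ℝ), (∀ k ∈ P.slopes, ⟪k, h⟫ ≤ c) →
        ∀ x ∈ closure P.D, x + h ∈ closure P.D → v ε (x + h) - v ε x ≤ c) ∧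
    ∀ (u : E3 → ℝ) (δ : ℝ), ContinuousOn u (closure P.D) → IsSub u P.D →
      IsSub (fun x => -u x) P.D → (∀ x ∈ frontier P.D, |u x - P.G x| ≤ δ) →
      ∀ om : ℝ, 0 < om → ∀ᶠ ε in 𝓝[>] (0 : ℝ), ∀ x ∈ closure P.D, |v ε x - u x| ≤ δ + om := by
  classical
  obtain ⟨C, hCD, hCK, hCL, hCG⟩ := exists_conf P
  choose v0 hv0 using fun ε (hε : 0 < ε) => exists_isMin hε C
  set v : ℝ → E3 → ℝ := fun ε => if h : 0 < ε then v0 ε h else C.G
  have hv : ∀ ε, 0 < ε → IsMin ε C (v ε) := fun ε hε => by simp only [v, dif_pos hε]; exact hv0 ε hε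
  have hfr : ∀ z ∈ frontier P.D, C.G z = P.G z := fun z hz => hCG z (frontier_subset_closure hz)
  have hout : ∀ ε, 0 < ε → ∀ x ∈ frontier P.D, v ε x = P.G x := fun ε hε x hx => by
    rw [(hv ε hε).1.2 x, hfr x hx]
    rw [P.isOpen.frontier_eq] at hx
    rw [hCD]; exact hx.2
  have hK : ∀ k ∈ P.slopes, ‖k‖ ≤ C.K := fun k hk => by
    rw [hCK, NNReal.coe_add]
    exact (P.slope_le k hk).trans (le_add_of_nonneg_right (NNReal.coe_nonneg _))
  have hchord : ∀ ε, 0 < ε → ∀ (h : E3) (c : ℝ), (∀ k ∈ P.slopes, ⟪k, h⟫ ≤ c) →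
      ∀ x ∈ closure P.D, x + h ∈ closure P.D → v ε (x + h) - v ε x ≤ c := by
    intro ε hε h c hc x hx hxh
    rw [← hCD] at hx hxh
    refine (hv ε hε).chord hε (fun y hy hyh hor => ?_) hx hxh
    rw [hCD] at hy hyh hor
    rcases hor with hy' | hy'
    · obtain ⟨k1, hk1, k2, -, hk⟩ := P.bsc y hy'
      have := (hv ε hε).le_plane hε (k := k1) (c := P.G y - ⟪k1, y⟫) (hK k1 hk1) (fun z hz => by
        rw [hCD] at hz
        rw [hfr z hz]
        have := (hk z hz).2
        rw [inner_sub_right] at this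
        linarith) (x := y + h) (by rw [hCD]; exact hyh)
      rw [hout ε hε y hy']
      rw [inner_add_right] at this
      linarith [hc k1 hk1]
    · obtain ⟨k1, -, k2, hk2, hk⟩ := P.bsc (y + h) hy'
      have := (hv ε hε).neg.le_plane hε (k := -k2) (c := -(P.G (y + h) - ⟪k2, y + h⟫))
        (by simpa using hK k2 hk2) (fun z hz => by
          change z ∈ frontier C.D at hz
          rw [hCD] at hz
          simp only [Conf.neg_G, hfr z hz, inner_neg_left]
          have := (hk z hz).1
          rw [inner_sub_right] at this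
          linarith) (x := y) (by change y ∈ closure C.D; rw [hCD]; exact hy)
      rw [hout ε hε (y + h) hy']
      simp only [inner_neg_left] at this
      have e : ⟪k2, y + h⟫ = ⟪k2, y⟫ + ⟪k2, h⟫ := inner_add_right _ _ _
      linarith [hc k2 hk2]
  have hLon : ∀ ε, 0 < ε → LipschitzOnWith P.L (v ε) (closure P.D) := fun ε hε =>
    LipschitzOnWith.of_le_add_mul _ fun a ha b hb => by
      have h1 := hchord ε hε (a - b) (P.L * ‖a - b‖) (fun k hk => (real_inner_le_norm _ _).trans
        (mul_le_mul_of_nonneg_right (P.slope_le k hk) (norm_nonneg _))) b hb (by simpa using ha)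
      rw [add_sub_cancel] at h1
      rw [dist_eq_norm]
      linarith
  have hlip : ∀ ε, 0 < ε → LipschitzWith (P.L + 1) (v ε) := fun ε hε => by
    have e : v ε = P.D.piecewise (v ε) C.G := by
      funext x
      by_cases hx : x ∈ P.D
      · simp [hx]
      · simp [hx, (hv ε hε).1.2 x (by rw [hCD]; exact hx)]
    rw [e]
    exact lipschitzWith_glue (((hLon ε hε).weaken le_self_add)) hCL fun x hx => by
      rw [hout ε hε x hx, hfr x hx]
  have hlt : P.L + 1 < C.K := by rw [hCK]; exact add_lt_add_of_le_of_lt le_rfl one_lt_two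
  refine ⟨v, fun ε hε => ⟨sol0_of_weak hε P.isOpen (hlip ε hε) fun ψ Lψ h1 h2 h3 =>
      (hv ε hε).euler hε (hlip ε hε) hlt h1 h2 (by rw [hCD]; exact h3),
    hLon ε hε, hout ε hε, hchord ε hε⟩, fun u δ huc hu hu' hbd om hom => ?_⟩
  have := eventually_close (n := 2) (P := C) hlt (v := v)
    (fun ε hε => ⟨hv ε hε, hlip ε hε⟩) (u := u) (by rwa [hCD]) (by rwa [hCD]) (by rwa [hCD])
    (δ := δ) (fun x hx => by rw [hCD] at hx; rw [hfr x hx]; exact hbd x hx) hom
  rwa [hCD] at this

end Vale.Agent.P080.C1.Approx
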