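import Vale.Agent.P080.C1.Approx.Energy
import Mathlib.Topology.Sequences
import Mathlib.Analysis.Calculus.LocalExtr.Basic
import Mathlib.Topology.MetricSpace.Lipschitz
import Mathlib.Analysis.Normed.Affine.Convex

/-!
# Lipschitz-constrained minimisers of the exponential energy with Dirichlet data
-/

namespace Vale.Agent.P080.C1.Approx

open scoped ContDiff Topology RealInnerProductSpace NNReal ENNReal Gradient
open Set Filter Metric MeasureTheory Vale.Agent.P080

variable {d : ℕ}

lemma gradient_congr {f g : E d → ℝ} {x : E d} (h : f =ᶠ[𝓝 x] g) : ∇ f x = ∇ g x := by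
  simp [gradient, h.fderiv_eq]

lemma gradient_eq_zero_of_eventually {v : E d → ℝ} {x : E d} {c : ℝ}
    (h : ∀ᶠ y in 𝓝 x, v y = c) : ∇ v x = 0 := by
  have : fderiv ℝ v x = fderiv ℝ (fun _ => c) x := Filter.EventuallyEq.fderiv_eq h
  simp [gradient, this]

lemma gradient_zero_off_tsupport {ψ : E d → ℝ} {x : E d} (hx : x ∉ tsupport ψ) : ∇ ψ x = 0 :=
  gradient_eq_zero_of_eventually (c := 0) (notMem_tsupport_iff_eventuallyEq.1 hx)

lemma gradient_neg (v : E d → ℝ) (x : E d) : ∇ (fun y => -v y) x = -∇ v x := by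
  simp [gradient, fderiv_fun_neg]

lemma gradient_eq_zero_of_min {f : E d → ℝ} {x : E d} (hnn : ∀ y, 0 ≤ f y) (h : f x = 0) :
    ∇ f x = 0 := by
  have hmin : IsLocalMin f x := Eventually.of_forall fun y => by rw [h]; exact hnn y
  simp [gradient, hmin.fderiv_eq_zero]

/-- piecewise gluing of Lipschitz functions agreeing on the frontier -/
lemma lipschitzWith_glue {U : Set (E d)} {f g : E d → ℝ} {K : ℝ≥0} [∀ x, Decidable (x ∈ U)]
    (hf : LipschitzOnWith K f (closure U)) (hg : LipschitzWith K g)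
    (h : ∀ x ∈ frontier U, f x = g x) : LipschitzWith K (U.piecewise f g) := by
  have key : ∀ a ∈ U, ∀ b ∉ U, dist (f a) (g b) ≤ K * dist a b := by
    intro a ha b hb
    obtain ⟨s, hs, hsU⟩ : ∃ s ∈ segment ℝ a b, s ∈ frontier U := by
      have hconn := (convex_segment a b).isPreconnected
      obtain ⟨s, hs⟩ : (segment ℝ a b ∩ frontier U).Nonempty := by
        by_contra hcon
        rw [not_nonempty_iff_eq_empty] at hcon
        have hsub : segment ℝ a b ⊆ interior U ∪ (closure U)ᶜ := fun x hx => by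
          by_cases h1 : x ∈ interior U
          · exact Or.inl h1
          · refine Or.inr fun h2 => ?_
            have : x ∈ segment ℝ a b ∩ frontier U := ⟨hx, h2, h1⟩
            rw [hcon] at this; exact this
        rcases hconn.subset_or_subset isOpen_interior isClosed_closure.isOpen_compl
          (disjoint_compl_right.mono_left (interior_subset.trans subset_closure)) hsub with h1 | h1
        · exact hb (interior_subset (h1 (right_mem_segment ℝ a b)))
        · exact h1 (left_mem_segment ℝ a b) (subset_closure ha)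
      exact ⟨s, hs⟩
    have h1 := hf.dist_le_mul a (subset_closure ha) s (frontier_subset_closure hsU)
    have h2 := hg.dist_le_mul s b
    rw [h s hsU] at h1
    calc dist (f a) (g b) ≤ dist (f a) (g s) + dist (g s) (g b) := dist_triangle _ _ _
      _ ≤ K * dist a s + K * dist s b := add_le_add h1 h2
      _ = K * dist a b := by rw [← mul_add, dist_add_dist_of_mem_segment hs]
  refine LipschitzWith.of_dist_le_mul fun a b => ?_
  by_cases ha : a ∈ U <;> by_cases hb : b ∈ U <;>
    simp only [piecewise, ha, hb, if_true, if_false]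
  · exact hf.dist_le_mul a (subset_closure ha) b (subset_closure hb)
  · exact key a ha b hb
  · rw [dist_comm, dist_comm a b]; exact key b hb a ha
  · exact hg.dist_le_mul a b

/-- `∫ Φ_ε(∇w)` -/
noncomputable def energy (ε : ℝ) (w : E d → ℝ) : ℝ := ∫ x, Phi ε (∇ w x)

/-- admissible functions -/
def Cls (D : Set (E d)) (G : E d → ℝ) (K : ℝ≥0) (w : E d → ℝ) : Prop :=
  LipschitzWith K w ∧ ∀ x, x ∉ D → w x = G x

/-- Dirichlet configuration -/
structure Conf (d : ℕ) where
  D : Set (E d)
  G : E d → ℝ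
  K : ℝ≥0
  isOpen : IsOpen D
  bdd : Bornology.IsBounded D
  lip : LipschitzWith K G
  cpt : HasCompactSupport G
  far : E d
  far_notMem : far ∉ D

namespace Conf

variable (P : Conf d)

/-- all admissible functions live on one compact set -/
def box : Set (E d) := closure P.D ∪ tsupport P.G

lemma isCompact_box : IsCompact P.box := P.bdd.isCompact_closure.union P.cpt

lemma gradient_off {w : E d → ℝ} (hw : Cls P.D P.G P.K w) {x : E d} (hx : x ∉ P.box) :
    ∇ w x = 0 := by
  simp only [box, mem_union, not_or] at hx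
  refine gradient_eq_zero_of_eventually (c := 0) ?_
  filter_upwards [isClosed_closure.isOpen_compl.mem_nhds hx.1,
    notMem_tsupport_iff_eventuallyEq.1 hx.2] with y hy hy'
  rw [hw.2 y fun h => hy (subset_closure h), hy']; rfl

lemma phi_le_indicator {ε : ℝ} (hε : 0 < ε) {w : E d → ℝ} (hw : Cls P.D P.G P.K w) (x : E d) :
    ‖Phi ε (∇ w x)‖ ≤ P.box.indicator (fun _ => Real.exp ((P.K : ℝ) ^ 2 / (2 * ε))) x := by
  rw [Real.norm_eq_abs, abs_of_nonneg (Phi_nonneg hε _)]
  by_cases hx : x ∈ P.box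
  · rw [indicator_of_mem hx]; exact Phi_le hε (norm_gradient_le hw.1 x)
  · rw [indicator_of_notMem hx, P.gradient_off hw hx, Phi_zero]

lemma integrable_bound (C : ℝ) : Integrable (P.box.indicator fun _ => C) :=
  (integrableOn_const P.isCompact_box.measure_lt_top.ne).integrable_indicator
    P.isCompact_box.measurableSet

lemma integrable_phi {ε : ℝ} (hε : 0 < ε) {w : E d → ℝ} (hw : Cls P.D P.G P.K w) :
    Integrable fun x => Phi ε (∇ w x) :=
  (P.integrable_bound _).mono' ((Phi_continuous ε).measurable.comp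
    (measurable_gradient w)).aestronglyMeasurable (Eventually.of_forall (P.phi_le_indicator hε hw))

lemma cls_G : Cls P.D P.G P.K P.G := ⟨P.lip, fun _ _ => rfl⟩

end Conf

/-- Compactness of `K`-Lipschitz functions that are bounded at one point. -/
lemma exists_subseq_tendsto {K : ℝ≥0} (v : ℕ → E d → ℝ) (hv : ∀ n, LipschitzWith K (v n))
    (x0 : E d) {B : ℝ} (hb : ∀ n, |v n x0| ≤ B) :
    ∃ (w : E d → ℝ) (φ : ℕ → ℕ), StrictMono φ ∧ LipschitzWith K w ∧
      ∀ x, Tendsto (fun n => v (φ n) x) atTop (𝓝 (w x)) := by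
  set q := TopologicalSpace.denseSeq (E d)
  have hmem : ∀ n, (fun i => v n (q i)) ∈
      Set.pi univ (fun i => Icc (-(B + K * dist (q i) x0)) (B + K * dist (q i) x0)) := by
    intro n i _
    have h1 := (hv n).dist_le_mul (q i) x0
    rw [Real.dist_eq] at h1
    exact abs_le.1 (by linarith [abs_sub_abs_le_abs_sub (v n (q i)) (v n x0), hb n])
  obtain ⟨g, _, φ, hφ, hlim⟩ := (isCompact_univ_pi fun i => isCompact_Icc).tendsto_subseq hmem
  rw [tendsto_pi_nhds] at hlim
  have hex : ∀ x, ∃ l, Tendsto (fun n => v (φ n) x) atTop (𝓝 l) := by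
    intro x
    refine cauchySeq_tendsto_of_complete (Metric.cauchySeq_iff'.2 fun η hη => ?_)
    obtain ⟨δ, hδ, hδ'⟩ : ∃ δ > 0, (K : ℝ) * δ < η / 3 := by
      refine ⟨η / (3 * ((K : ℝ) + 1)), by positivity, ?_⟩
      rw [← mul_div_assoc, div_lt_div_iff₀ (by positivity) (by norm_num)]
      nlinarith [K.2]
    obtain ⟨i, hi⟩ : ∃ i, dist x (q i) < δ :=
      (TopologicalSpace.denseRange_denseSeq (E d)).exists_dist_lt x hδ
    obtain ⟨N, hN⟩ := Metric.cauchySeq_iff'.1 (hlim i).cauchySeq (η / 3) (by linarith)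
    refine ⟨N, fun n hn => ?_⟩
    have h1 := (hv (φ n)).dist_le_mul x (q i)
    have h2 := (hv (φ N)).dist_le_mul (q i) x
    have h4 : (K : ℝ) * dist x (q i) ≤ K * δ := mul_le_mul_of_nonneg_left hi.le K.2
    rw [dist_comm (q i) x] at h2
    have h5 := hN n hn
    simp only [Function.comp_apply] at h5
    linarith [dist_triangle4 (v (φ n) x) (v (φ n) (q i)) (v (φ N) (q i)) (v (φ N) x)]
  choose w hw using hex
  refine ⟨w, φ, hφ, LipschitzWith.of_dist_le_mul fun a b => ?_, hw⟩
  exact le_of_tendsto ((hw a).dist (hw b))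
    (Eventually.of_forall fun n => (hv (φ n)).dist_le_mul a b)

/-- mollified gradients converge along pointwise convergent Lipschitz sequences -/
lemma tendsto_gradient_mol (m : ℝ) {K : ℝ≥0} {v : ℕ → E d → ℝ} {w : E d → ℝ}
    (hv : ∀ n, LipschitzWith K (v n)) (hw : LipschitzWith K w)
    (hlim : ∀ x, Tendsto (fun n => v n x) atTop (𝓝 (w x))) (x : E d) :
    Tendsto (fun n => ∇ (mol m (v n)) x) atTop (𝓝 (∇ (mol m w) x)) := by
  have hd : ∀ u : E d → ℝ, LipschitzWith K u → fderiv ℝ (mol m u) x
      = ∫ h, (fderiv ℝ (wgt d m) h).smulRight (u (x - h)) := fun u hu => by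
    have h := (wgt_compact m).hasFDerivAt_convolution_left (μ := volume)
      (ContinuousLinearMap.lsmul ℝ ℝ) ((bump d m).contDiff_normed (n := 1))
      hu.continuous.locallyIntegrable x
    rw [mol_eq_convolution]
    refine (h.fderiv.trans ?_)
    rw [convolution_def]
    refine integral_congr_ae (Eventually.of_forall fun h => ?_)
    ext e
    simp [ContinuousLinearMap.precompL, wgt]
  have hcont : Continuous (fderiv ℝ (wgt d m)) :=
    ((bump d m).contDiff_normed (n := 1)).continuous_fderiv (by norm_num)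
  obtain ⟨B, hB⟩ : ∃ B, ∀ n, |v n x| ≤ B := by
    obtain ⟨B, hB⟩ := (Metric.isBounded_range_of_tendsto _ (hlim x)).exists_norm_le
    exact ⟨B, fun n => hB _ ⟨n, rfl⟩⟩
  have hF : Tendsto (fun n => fderiv ℝ (mol m (v n)) x) atTop (𝓝 (fderiv ℝ (mol m w) x)) := by
    simp only [hd _ (hv _), hd _ hw]
    refine tendsto_integral_of_dominated_convergence
      (fun h => ‖fderiv ℝ (wgt d m) h‖ * (B + K * ‖h‖)) (fun n => ?_) ?_ (fun n => ?_) ?_
    · have := (hv n).continuous
      exact (((ContinuousLinearMap.smulRightL ℝ (E d) ℝ).continuous₂).comp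
        (hcont.prodMk (by fun_prop : Continuous fun h : E d => v n (x - h)))).aestronglyMeasurable
    · refine Continuous.integrable_of_hasCompactSupport (by fun_prop) ?_
      exact ((wgt_compact m).fderiv ℝ).norm.mul_right
    · refine Eventually.of_forall fun h => ?_
      rw [ContinuousLinearMap.norm_smulRight_apply]
      refine mul_le_mul_of_nonneg_left ?_ (norm_nonneg _)
      have h1 := (hv n).dist_le_mul (x - h) x
      rw [Real.dist_eq, dist_eq_norm, sub_sub_cancel_left, norm_neg] at h1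
      rw [Real.norm_eq_abs]
      linarith [abs_sub_abs_le_abs_sub (v n (x - h)) (v n x), hB n]
    · exact Eventually.of_forall fun h =>
        ((ContinuousLinearMap.smulRightL ℝ (E d) ℝ (fderiv ℝ (wgt d m) h)).continuous.tendsto _).comp
          (hlim _)
  exact ((InnerProductSpace.toDual ℝ (E d)).symm.continuous.tendsto _).comp hF

/-- minimisers in the admissible class -/
def IsMin (ε : ℝ) (P : Conf d) (v : E d → ℝ) : Prop :=
  Cls P.D P.G P.K v ∧ ∀ w, Cls P.D P.G P.K w → energy ε v ≤ energy ε w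

lemma energy_le_of_tendsto {ε : ℝ} (hε : 0 < ε) (P : Conf d) {v : ℕ → E d → ℝ} {w : E d → ℝ}
    (hv : ∀ n, Cls P.D P.G P.K (v n)) (hw : Cls P.D P.G P.K w)
    (hlim : ∀ x, Tendsto (fun n => v n x) atTop (𝓝 (w x))) {I : ℝ}
    (hI : Tendsto (fun n => energy ε (v n)) atTop (𝓝 I)) : energy ε w ≤ I := by
  have hof : ∀ u, Cls P.D P.G P.K u →
      ENNReal.ofReal (energy ε u) = ∫⁻ x, ENNReal.ofReal (Phi ε (∇ u x)) := fun u hu =>
    ofReal_integral_eq_lintegral_ofReal (P.integrable_phi hε hu)
      (Eventually.of_forall fun x => Phi_nonneg hε _)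
  have hmeas : ∀ u : E d → ℝ, Measurable fun x => ENNReal.ofReal (Phi ε (∇ u x)) := fun u =>
    ((Phi_continuous ε).measurable.comp (measurable_gradient u)).ennreal_ofReal
  have hm : ∀ m : ℝ, ∫⁻ x, ENNReal.ofReal (Phi ε (∇ (mol m w) x)) ≤ ENNReal.ofReal I := by
    intro m
    have hl : ∀ x, liminf (fun n => ENNReal.ofReal (Phi ε (∇ (mol m (v n)) x))) atTop
        = ENNReal.ofReal (Phi ε (∇ (mol m w) x)) := fun x =>
      (ENNReal.tendsto_ofReal (((Phi_continuous ε).tendsto _).comp
        (tendsto_gradient_mol m (fun n => (hv n).1) hw.1 hlim x))).liminf_eq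
    calc _ = ∫⁻ x, liminf (fun n => ENNReal.ofReal (Phi ε (∇ (mol m (v n)) x))) atTop := by
          simp only [hl]
      _ ≤ liminf (fun n => ∫⁻ x, ENNReal.ofReal (Phi ε (∇ (mol m (v n)) x))) atTop :=
          lintegral_liminf_le fun n => hmeas _
      _ ≤ liminf (fun n => ENNReal.ofReal (energy ε (v n))) atTop := by
          refine liminf_le_liminf (Eventually.of_forall fun n => ?_)
          simp only [hof _ (hv n)]
          exact lintegral_Phi_mol_le hε m (hv n).1
      _ = _ := (ENNReal.tendsto_ofReal hI).liminf_eq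
  have h0 : 0 ≤ I := ge_of_tendsto' hI fun n => integral_nonneg fun x => Phi_nonneg hε _
  refine (ENNReal.ofReal_le_ofReal_iff h0).1 ?_
  have hae := ae_tendsto_mol (F := E d) (locallyIntegrable_of_bounded
    (measurable_gradient w).aestronglyMeasurable (norm_gradient_le hw.1))
  rw [hof _ hw]
  calc _ = ∫⁻ x, liminf (fun m : ℕ => ENNReal.ofReal
          (Phi ε (∇ (mol (1 / ((m : ℝ) + 1)) w) x))) atTop := by
        refine lintegral_congr_ae ?_
        filter_upwards [hae] with x hx
        have h1 : Tendsto (fun m : ℕ => ∇ (mol (1 / ((m : ℝ) + 1)) w) x) atTop (𝓝 (∇ w x)) :=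
          (hx.comp tendsto_radius).congr fun m => (gradient_mol _ hw.1 x).symm
        exact (ENNReal.tendsto_ofReal (((Phi_continuous ε).tendsto _).comp h1)).liminf_eq.symm
    _ ≤ liminf (fun m : ℕ => ∫⁻ x, ENNReal.ofReal
          (Phi ε (∇ (mol (1 / ((m : ℝ) + 1)) w) x))) atTop :=
        lintegral_liminf_le fun m => hmeas _
    _ ≤ _ := liminf_le_of_frequently_le' (Frequently.of_forall fun m => hm _)

theorem exists_isMin {ε : ℝ} (hε : 0 < ε) (P : Conf d) : ∃ v, IsMin ε P v := by
  set S := {e | ∃ w, Cls P.D P.G P.K w ∧ e = energy ε w}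
  have hS : energy ε P.G ∈ S := ⟨_, P.cls_G, rfl⟩
  have hbdd : BddBelow S := ⟨0, by
    rintro _ ⟨w, -, rfl⟩; exact integral_nonneg fun x => Phi_nonneg hε _⟩
  obtain ⟨u, -, hlim, hu⟩ := exists_seq_tendsto_sInf ⟨_, hS⟩ hbdd
  choose v hv hev using hu
  obtain ⟨w, φ, hφ, hwK, hwlim⟩ := exists_subseq_tendsto v (fun n => (hv n).1) P.far
    (B := |P.G P.far|) (fun n => by rw [(hv n).2 _ P.far_notMem])
  have hw : Cls P.D P.G P.K w := ⟨hwK, fun x hx => tendsto_nhds_unique (hwlim x)
    (tendsto_const_nhds.congr fun n => ((hv (φ n)).2 x hx).symm)⟩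
  have hle : energy ε w ≤ sInf S :=
    energy_le_of_tendsto hε P (v := fun n => v (φ n)) (fun n => hv _) hw hwlim
      ((hlim.comp hφ.tendsto_atTop).congr fun n => hev _)
  exact ⟨w, hw, fun z hz => hle.trans (csInf_le hbdd ⟨z, hz, rfl⟩)⟩

lemma Phi_neg (ε : ℝ) (p : E d) : Phi ε (-p) = Phi ε p := by simp [Phi]

lemma energy_shift (ε : ℝ) (w : E d → ℝ) (h : E d) (c : ℝ) :
    energy ε (fun x => w (x - h) + c) = energy ε w := by
  simp only [energy, gradient_comp_sub]
  exact integral_sub_right_eq_self (fun y => Phi ε (∇ w y)) h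

/-- the configuration with negated data -/
@[simps] def Conf.neg (P : Conf d) : Conf d where
  D := P.D
  G := fun x => -P.G x
  K := P.K
  isOpen := P.isOpen
  bdd := P.bdd
  lip := P.lip.neg
  cpt := P.cpt.neg
  far := P.far
  far_notMem := P.far_notMem

lemma energy_neg (ε : ℝ) (w : E d → ℝ) : energy ε (fun x => -w x) = energy ε w := by
  simp only [energy, gradient_neg, Phi_neg]

lemma IsMin.neg {ε : ℝ} {P : Conf d} {v : E d → ℝ} (hv : IsMin ε P v) :
    IsMin ε P.neg (fun x => -v x) := by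
  refine ⟨⟨hv.1.1.neg, fun x hx => by simp [hv.1.2 x hx]⟩, fun w hw => ?_⟩
  have h := hv.2 (fun x => -w x) ⟨hw.1.neg, fun x hx => by simp [hw.2 x hx]⟩
  rw [energy_neg] at h ⊢
  exact h

end Vale.Agent.P080.C1.Approx
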