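import Vale.Agent.P080.C1.Approx.H2
import Mathlib.Analysis.Distribution.AEEqOfIntegralContDiff
import Mathlib.Algebra.Order.Chebyshev

/-!
# The residual of mollified weak solutions tends to zero in `L²`
-/

namespace Vale.Agent.P080.C1.Approx

open scoped ContDiff Topology RealInnerProductSpace NNReal ENNReal Gradient
open Set Filter Metric MeasureTheory Vale.Agent.P080

variable {d : ℕ}

/-- residual of `ε Δu + Δ∞u = 0` -/
noncomputable def resG (ε : ℝ) (u : E d → ℝ) (x : E d) : ℝ :=
  ε * ∑ i, pd i (pd i u) x + infLap u x

/-- coefficients of the linearised operator -/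
noncomputable def coef (ε : ℝ) (p : E d) (i j : Fin d) : ℝ :=
  ε * (if i = j then 1 else 0) + p i * p j

lemma resG_eq (ε : ℝ) (u : E d → ℝ) (x : E d) :
    resG ε u x = ∑ i, ∑ j, coef ε (∇ u x) i j * pd i (pd j u) x := by
  simp only [resG, coef, infLap, gradient_apply, add_mul, Finset.sum_add_distrib, mul_ite, mul_one,
    mul_zero, ite_mul, zero_mul, Finset.sum_ite_eq, Finset.mem_univ, if_true, Finset.mul_sum]

lemma measurable_pd (v : E d → ℝ) (i : Fin d) : Measurable (pd i v) :=
  measurable_fderiv_apply_const ℝ v _

lemma abs_pd_le {v : E d → ℝ} {L : ℝ≥0} (hL : LipschitzWith L v) (i : Fin d) (x : E d) :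
    |pd i v x| ≤ L := by
  rw [← gradient_apply]
  exact (PiLp.norm_apply_le (∇ v x) i).trans (norm_gradient_le hL x)

lemma pd_mol_eq {η : ℝ} {v : E d → ℝ} {L : ℝ≥0} (hL : LipschitzWith L v) (i : Fin d) :
    pd i (mol η v) = mol η (pd i v) := by
  funext x
  rw [← gradient_apply, gradient_mol η hL x]
  have := (EuclideanSpace.proj (𝕜 := ℝ) i).integral_comp_comm
    (integrable_wgt_smul η (measurable_gradient v).aestronglyMeasurable (norm_gradient_le hL) x)
  simpa [mol, gradient_apply] using this.symm

lemma ae_tendsto_pd_mol {v : E d → ℝ} {L : ℝ≥0} (hL : LipschitzWith L v) (i : Fin d) :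
    ∀ᵐ x, Tendsto (fun η => pd i (mol η v) x) (𝓝[>] 0) (𝓝 (pd i v x)) := by
  simp only [pd_mol_eq hL i]
  exact ae_tendsto_mol (locallyIntegrable_of_bounded (measurable_pd v i).aestronglyMeasurable
    fun y => abs_pd_le hL i y)

/-- Near a compact set the mollified second derivatives are mollifications of one `L²` function. -/
theorem exists_weak_deriv {ε : ℝ} (hε : 0 < ε) {D : Set (E d)} (hD : IsOpen D) {v : E d → ℝ}
    {L : ℝ≥0} (hL : LipschitzWith L v) (hw : Weak ε D v) {K : Set (E d)} (hK : IsCompact K)
    (hKD : K ⊆ D) (i j : Fin d) :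
    ∃ G : E d → ℝ, Integrable G ∧ Integrable (fun y => G y ^ 2) ∧
      ∀ᶠ η in 𝓝[>] (0 : ℝ), ∀ x ∈ K, pd i (pd j (mol η v)) x = mol η G x := by
  obtain ⟨ρ, hρ, hρD⟩ := hK.exists_cthickening_subset_open hD hKD
  set K' := cthickening ρ K with hK'def
  have hK' : IsCompact K' := hK.cthickening
  obtain ⟨C, -, hev⟩ := hess_bound hε hD hL hw hK' hρD
  obtain ⟨N, hN⟩ := eventually_atTop.1 (tendsto_radius.eventually hev)
  set r : ℕ → ℝ := fun n => 1 / (((n + N : ℕ) : ℝ) + 1) with hr
  set q : ℕ → E d → ℝ := fun n => pd i (pd j (mol (r n) v)) with hqdef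
  have hsm : ∀ η, ContDiff ℝ ∞ (mol η v) := fun η =>
    contDiff_mol η hL.continuous.locallyIntegrable
  have hsm2 : ∀ η, ContDiff ℝ 2 (mol η v) := fun η => (hsm η).of_le (WithTop.coe_le_coe.2 le_top)
  have hqc : ∀ n, Continuous (q n) := fun n => continuous_pd2 (hsm2 _) i j
  have : IsFiniteMeasure (volume.restrict K') :=
    isFiniteMeasure_restrict.2 hK'.measure_lt_top.ne
  have hqm : ∀ n, MemLp (q n) 2 (volume.restrict K') := fun n => by
    obtain ⟨B, hB⟩ := hK'.exists_bound_of_continuousOn (hqc n).continuousOn
    exact MemLp.of_bound (hqc n).aestronglyMeasurable B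
      ((ae_restrict_iff' hK'.measurableSet).2 (Eventually.of_forall hB))
  obtain ⟨φ, g, hφ, hg, hlim⟩ := exists_weak_limit hK' hqm
    (fun n => hN (n + N) (Nat.le_add_left _ _) i j)
  set G := K'.indicator g with hG
  have hGi : Integrable G :=
    (show IntegrableOn g K' volume from hg.integrable (by norm_num)).integrable_indicator hK'.measurableSet
  have hG2 : Integrable fun y => G y ^ 2 := by
    have e : (fun y => G y ^ 2) = K'.indicator (fun y => g y ^ 2) := by
      funext y; by_cases hy : y ∈ K' <;> simp [hG, hy]
    rw [e]
    exact (show IntegrableOn (fun y => g y ^ 2) K' volume from hg.integrable_sq).integrable_indicator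
      hK'.measurableSet
  refine ⟨G, hGi, hG2, ?_⟩
  filter_upwards [self_mem_nhdsWithin,
    mem_nhdsWithin_of_mem_nhds (Iio_mem_nhds hρ)] with η (hη : 0 < η) (hηρ : η < ρ) x hx
  set e : E d := EuclideanSpace.single i 1
  set θ : E d → ℝ := fun y => wgt d η (x - y) with hθ
  have hθs : ∀ y, y ∉ K' → θ y = 0 := fun y hy => by
    refine wgt_eq_zero hη ?_
    by_contra h
    rw [not_le] at h
    exact hy (mem_cthickening_of_dist_le y x ρ K hx (by
      rw [dist_eq_norm, norm_sub_rev]; linarith))
  have hθd : ContDiff ℝ 1 θ := ((bump d η).contDiff_normed).comp (contDiff_const.sub contDiff_id)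
  have hθt : tsupport θ ⊆ K' := closure_minimal (fun y hy => by
    by_contra h; exact hy (hθs y h)) hK'.isClosed
  have hθc : HasCompactSupport θ := hK'.of_isClosed_subset (isClosed_tsupport θ) hθt
  obtain ⟨Lθ, hLθ⟩ : ∃ Lθ, LipschitzWith Lθ θ :=
    ⟨_, (hθd.lipschitzWith_of_hasCompactSupport hθc (by norm_num)).choose_spec⟩
  have hθm : MemLp θ 2 (volume.restrict K') := by
    obtain ⟨B, hB⟩ := hK'.exists_bound_of_continuousOn hθd.continuous.continuousOn
    exact MemLp.of_bound hθd.continuous.aestronglyMeasurable B
      ((ae_restrict_iff' hK'.measurableSet).2 (Eventually.of_forall hB))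
  have h1 := hlim θ hθm
  have hpθ : ∀ y, pd i θ y = -pd i (wgt d η) (x - y) := fun y => by
    have hd : HasFDerivAt θ ((fderiv ℝ (wgt d η) (x - y)).comp (-ContinuousLinearMap.id ℝ (E d))) y :=
      ((((bump d η).contDiff_normed (n := 1)).differentiable (by norm_num))
        (x - y)).hasFDerivAt.comp y ((hasFDerivAt_id y).const_sub x)
    simp [pd, hd.fderiv]
  have hseq : ∀ n, ∫ y in K', q n y * θ y = -∫ y, pd j (mol (r n) v) y * pd i θ y := fun n => by
    rw [setIntegral_eq_integral_of_forall_compl_eq_zero fun y hy => by simp [hθs y hy]]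
    rw [integral_mul_pd hLθ hθc (differentiable_pd (hsm2 _) j) i, neg_neg]
  have hr0 : Tendsto (fun n => r (φ n)) atTop (𝓝[>] 0) :=
    (tendsto_radius.comp (tendsto_add_atTop_nat N)).comp hφ.tendsto_atTop
  have hpθc : Continuous (pd i θ) := by
    unfold pd; exact (hθd.continuous_fderiv (by norm_num)).clm_apply continuous_const
  have hpθcs : HasCompactSupport (pd i θ) := hθc.fderiv_apply ℝ e
  have h2 : Tendsto (fun n => ∫ y, pd j (mol (r (φ n)) v) y * pd i θ y) atTop
      (𝓝 (∫ y, pd j v y * pd i θ y)) := by
    refine tendsto_integral_of_dominated_convergence (fun y => L * ‖pd i θ y‖)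
      (fun n => ((differentiable_pd (hsm2 _) j).continuous.mul hpθc).aestronglyMeasurable)
      ((hpθc.integrable_of_hasCompactSupport hpθcs).norm.const_mul _)
      (fun n => Eventually.of_forall fun y => ?_) ?_
    · rw [norm_mul]
      exact mul_le_mul_of_nonneg_right (abs_pd_le (lipschitzWith_mol _ hL) j y) (norm_nonneg _)
    · filter_upwards [ae_tendsto_pd_mol hL j] with y hy using (hy.comp hr0).mul_const _
  have h3 : ∫ y in K', g y * θ y = -∫ y, pd j v y * pd i θ y :=
    tendsto_nhds_unique h1 (h2.neg.congr fun n => (hseq (φ n)).symm)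
  have h4 : mol η G x = ∫ y in K', g y * θ y := by
    have e1 : mol η G x = ∫ y, θ y * G y := by
      simp only [mol, smul_eq_mul, hθ]
      rw [← integral_sub_left_eq_self (fun h => wgt d η h * G (x - h)) volume x]
      simp only [sub_sub_cancel]
    rw [e1, ← setIntegral_eq_integral_of_forall_compl_eq_zero (s := K')
      fun y hy => by simp [hθs y hy]]
    exact setIntegral_congr_fun hK'.measurableSet fun y hy => by
      simp only [hG, indicator_of_mem hy, mul_comm]
  rw [h4, h3, pd, pd_mol_eq hL j, mol_eq_convolution]
  have hconv := (wgt_compact (d := d) η).hasFDerivAt_convolution_left (μ := volume)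
    (ContinuousLinearMap.lsmul ℝ ℝ) ((bump d η).contDiff_normed (n := 1))
    (locallyIntegrable_of_bounded (measurable_pd v j).aestronglyMeasurable
      fun y => abs_pd_le hL j y) x
  rw [show ((bump d η).normed volume) = wgt d η from rfl, hconv.fderiv, convolution_def, ContinuousLinearMap.integral_apply]
  swap
  · exact ((wgt_compact (d := d) η).fderiv ℝ).convolutionExists_left _
      (((bump d η).contDiff_normed (n := 1)).continuous_fderiv (by norm_num))
      (locallyIntegrable_of_bounded (measurable_pd v j).aestronglyMeasurable
        fun y => abs_pd_le hL j y) x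
  rw [← integral_sub_left_eq_self _ volume x, ← integral_neg]
  refine integral_congr_ae (Eventually.of_forall fun y => ?_)
  beta_reduce
  rw [hpθ]
  simp [ContinuousLinearMap.precompL, pd, wgt, mul_comm]

lemma coef_bound {ε : ℝ} (hε : 0 < ε) {p : E d} {L : ℝ} (hp : ‖p‖ ≤ L) (i j : Fin d) :
    |coef ε p i j| ≤ ε + L ^ 2 := by
  have h1 : |p i * p j| ≤ L * L := by
    rw [abs_mul]
    exact mul_le_mul ((PiLp.norm_apply_le p i).trans hp) ((PiLp.norm_apply_le p j).trans hp)
      (abs_nonneg _) ((norm_nonneg p).trans hp)
  have h2 : |ε * (if i = j then (1 : ℝ) else 0)| ≤ ε := by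
    split_ifs <;> simp [abs_of_pos hε, hε.le]
  calc |coef ε p i j| ≤ _ := abs_add_le _ _
    _ ≤ ε + L ^ 2 := by rw [sq]; exact add_le_add h2 h1

lemma continuous_coef (ε : ℝ) (i j : Fin d) : Continuous fun p : E d => coef ε p i j :=
  continuous_const.add ((EuclideanSpace.proj (𝕜 := ℝ) i).continuous.mul
    (EuclideanSpace.proj (𝕜 := ℝ) j).continuous)

/-- The residual converges to zero in `L²` on compact subsets. -/
theorem tendsto_resG {ε : ℝ} (hε : 0 < ε) {D : Set (E d)} (hD : IsOpen D) {v : E d → ℝ}
    {L : ℝ≥0} (hL : LipschitzWith L v) (hw : Weak ε D v) {K : Set (E d)} (hK : IsCompact K)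
    (hKD : K ⊆ D) :
    Tendsto (fun η => ∫ x in K, resG ε (mol η v) x ^ 2) (𝓝[>] 0) (𝓝 0) := by
  obtain ⟨ρ, hρ, hρD⟩ := hK.exists_cthickening_subset_open hD hKD
  set K2 := cthickening ρ K
  have hK2 : IsCompact K2 := hK.cthickening
  choose G hG hG2 hGeq using fun i j => exists_weak_deriv hε hD hL hw hK2 hρD i j
  have hall : ∀ᶠ η in 𝓝[>] (0 : ℝ), 0 < η ∧ ∀ i j, ∀ x ∈ K2,
      pd i (pd j (mol η v)) x = mol η (G i j) x := by
    filter_upwards [eventually_all.2 fun i => eventually_all.2 (hGeq i),
      self_mem_nhdsWithin] with η h1 h2 using ⟨h2, h1⟩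
  set S : E d → ℝ := fun x => ∑ i, ∑ j, coef ε (∇ v x) i j * G i j x
  have hsm2 : ∀ η, ContDiff ℝ 2 (mol η v) := fun η =>
    (contDiff_mol η hL.continuous.locallyIntegrable).of_le (WithTop.coe_le_coe.2 le_top)
  have hgradc : ∀ η, Continuous fun x => ∇ (mol η v) x := fun η =>
    (InnerProductSpace.toDual ℝ (E d)).symm.continuous.comp
      ((hsm2 η).continuous_fderiv (by norm_num))
  set T : ℝ → E d → ℝ := fun η x => ∑ i, ∑ j, coef ε (∇ (mol η v) x) i j * mol η (G i j) x
  set c0 := ε + (L : ℝ) ^ 2
  have hc0 : 0 ≤ c0 := by positivity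
  have hgm : ∀ η x, ‖∇ (mol η v) x‖ ≤ L := fun η x => norm_gradient_le (lipschitzWith_mol η hL) x
  have hSm : AEStronglyMeasurable S volume :=
    Finset.univ.aestronglyMeasurable_fun_sum fun i _ =>
      Finset.univ.aestronglyMeasurable_fun_sum fun j _ =>
        ((continuous_coef ε i j).measurable.comp (measurable_gradient v)).aestronglyMeasurable.mul
          (hG i j).aestronglyMeasurable
  have hSi : Integrable S := integrable_finsetSum _ fun i _ => integrable_finsetSum _ fun j _ =>
    (hG i j).bdd_mul (c := c0)
      ((continuous_coef ε i j).measurable.comp (measurable_gradient v)).aestronglyMeasurable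
      (Eventually.of_forall fun x => coef_bound hε (norm_gradient_le hL x) i j)
  -- convergence of the coefficients times mollifications
  have hpair : ∀ i j, Tendsto (fun η => ∫ x, (coef ε (∇ (mol η v) x) i j * mol η (G i j) x
      - coef ε (∇ v x) i j * G i j x) ^ 2) (𝓝[>] 0) (𝓝 0) := by
    intro i j
    have hA := tendsto_mol_L2 (hG i j) (hG2 i j)
    have hB : Tendsto (fun η => ∫ x, (coef ε (∇ (mol η v) x) i j - coef ε (∇ v x) i j) ^ 2
        * G i j x ^ 2) (𝓝[>] 0) (𝓝 0) := by
      rw [← integral_zero (E d) ℝ]
      refine tendsto_integral_filter_of_dominated_convergence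
        (fun x => (2 * c0) ^ 2 * G i j x ^ 2) (Eventually.of_forall fun η => ?_)
        (Eventually.of_forall fun η => Eventually.of_forall fun x => ?_) ((hG2 i j).const_mul _) ?_
      · exact (((((continuous_coef ε i j).comp (hgradc η)).measurable).sub
          ((continuous_coef ε i j).measurable.comp (measurable_gradient v))).pow_const
            2).aestronglyMeasurable.mul (hG2 i j).aestronglyMeasurable
      · rw [Real.norm_eq_abs, abs_of_nonneg (mul_nonneg (sq_nonneg _) (sq_nonneg _))]
        refine mul_le_mul_of_nonneg_right ?_ (sq_nonneg _)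
        rw [← sq_abs]
        refine pow_le_pow_left₀ (abs_nonneg _) ((abs_sub _ _).trans ?_) 2
        linarith [coef_bound hε (hgm η x) i j, coef_bound hε (norm_gradient_le hL x) i j]
      · filter_upwards [ae_tendsto_mol (F := E d) (locallyIntegrable_of_bounded
          (measurable_gradient v).aestronglyMeasurable (norm_gradient_le hL))] with x hx
        have h : Tendsto (fun η => ∇ (mol η v) x) (𝓝[>] 0) (𝓝 (∇ v x)) :=
          hx.congr fun η => (gradient_mol η hL x).symm
        simpa using ((((continuous_coef ε i j).tendsto _).comp h).sub_const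
          (coef ε (∇ v x) i j)).pow 2 |>.mul_const (G i j x ^ 2)
    have hsum : Tendsto (fun η => 2 * c0 ^ 2 * (∫ x, (mol η (G i j) x - G i j x) ^ 2)
        + 2 * ∫ x, (coef ε (∇ (mol η v) x) i j - coef ε (∇ v x) i j) ^ 2 * G i j x ^ 2)
        (𝓝[>] 0) (𝓝 0) := by simpa using (hA.const_mul (2 * c0 ^ 2)).add (hB.const_mul 2)
    refine squeeze_zero (fun η => integral_nonneg fun x => sq_nonneg _) (fun η => ?_) hsum
    have hi1 : Integrable fun x => (mol η (G i j) x - G i j x) ^ 2 := by
      have hm : Integrable fun x => mol η (G i j) x ^ 2 := by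
        refine (integrable_mol η (hG2 i j)).mono'
          ((integrable_mol η (hG i j)).aestronglyMeasurable.pow 2)
          (Eventually.of_forall fun x => ?_)
        rw [Real.norm_eq_abs, abs_of_nonneg (sq_nonneg _)]
        exact sq_mol_le η (hG i j) (hG2 i j) x
      refine ((hm.const_mul 2).add ((hG2 i j).const_mul 2)).mono'
        (((integrable_mol η (hG i j)).sub (hG i j)).aestronglyMeasurable.pow 2)
        (Eventually.of_forall fun x => ?_)
      rw [Real.norm_eq_abs, abs_of_nonneg (sq_nonneg _)]
      simp only [Pi.add_apply]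
      nlinarith [sq_nonneg (mol η (G i j) x + G i j x)]
    have hi2 : Integrable fun x =>
        (coef ε (∇ (mol η v) x) i j - coef ε (∇ v x) i j) ^ 2 * G i j x ^ 2 := by
      refine (hG2 i j).bdd_mul (c := (2 * c0) ^ 2)
        (((((continuous_coef ε i j).comp (hgradc η)).measurable).sub
          ((continuous_coef ε i j).measurable.comp (measurable_gradient v))).pow_const
            2).aestronglyMeasurable (Eventually.of_forall fun x => ?_)
      rw [Real.norm_eq_abs, abs_of_nonneg (sq_nonneg _), ← sq_abs]
      refine pow_le_pow_left₀ (abs_nonneg _) ((abs_sub _ _).trans ?_) 2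
      linarith [coef_bound hε (hgm η x) i j, coef_bound hε (norm_gradient_le hL x) i j]
    rw [← integral_const_mul, ← integral_const_mul, ← integral_add (hi1.const_mul _) (hi2.const_mul _)]
    refine integral_mono_of_nonneg (Eventually.of_forall fun x => sq_nonneg _)
      ((hi1.const_mul _).add (hi2.const_mul _)) (Eventually.of_forall fun x => ?_)
    simp only
    set a := coef ε (∇ (mol η v) x) i j
    set b := coef ε (∇ v x) i j
    have ha : a ^ 2 ≤ c0 ^ 2 := by
      rw [← sq_abs]; exact pow_le_pow_left₀ (abs_nonneg _) (coef_bound hε (hgm η x) i j) 2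
    have h := mul_le_mul_of_nonneg_right ha (sq_nonneg (mol η (G i j) x - G i j x))
    nlinarith [sq_nonneg (a * (mol η (G i j) x - G i j x) - (a - b) * G i j x)]
  have hTS : Tendsto (fun η => ∫ x in K2, (T η x - S x) ^ 2) (𝓝[>] 0) (𝓝 0) := by
    have hsum : Tendsto (fun η => ((d : ℝ) * d) * ∑ i : Fin d, ∑ j : Fin d,
        ∫ x, (coef ε (∇ (mol η v) x) i j * mol η (G i j) x
          - coef ε (∇ v x) i j * G i j x) ^ 2) (𝓝[>] 0) (𝓝 0) := by
      simpa using (tendsto_finsetSum _ fun i _ => tendsto_finsetSum _ fun j _ =>
        hpair i j).const_mul ((d : ℝ) * d)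
    refine squeeze_zero (fun η => integral_nonneg fun x => sq_nonneg _) (fun η => ?_) hsum
    have hi : ∀ i j, Integrable fun x => (coef ε (∇ (mol η v) x) i j * mol η (G i j) x
        - coef ε (∇ v x) i j * G i j x) ^ 2 := by
      intro i j
      have hm : Integrable fun x => mol η (G i j) x ^ 2 := by
        refine (integrable_mol η (hG2 i j)).mono'
          ((integrable_mol η (hG i j)).aestronglyMeasurable.pow 2)
          (Eventually.of_forall fun x => ?_)
        rw [Real.norm_eq_abs, abs_of_nonneg (sq_nonneg _)]
        exact sq_mol_le η (hG i j) (hG2 i j) x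
      refine ((hm.const_mul (2 * c0 ^ 2)).add ((hG2 i j).const_mul (2 * c0 ^ 2))).mono'
        (((((continuous_coef ε i j).comp (hgradc η)).aestronglyMeasurable.mul
          (integrable_mol η (hG i j)).aestronglyMeasurable).sub
          (((continuous_coef ε i j).measurable.comp (measurable_gradient v)).aestronglyMeasurable.mul
            (hG i j).aestronglyMeasurable)).pow 2) (Eventually.of_forall fun x => ?_)
      rw [Real.norm_eq_abs, abs_of_nonneg (sq_nonneg _)]
      simp only [Pi.add_apply]
      set a := coef ε (∇ (mol η v) x) i j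
      set b := coef ε (∇ v x) i j
      have ha : a ^ 2 ≤ c0 ^ 2 := by
        rw [← sq_abs]; exact pow_le_pow_left₀ (abs_nonneg _) (coef_bound hε (hgm η x) i j) 2
      have hb : b ^ 2 ≤ c0 ^ 2 := by
        rw [← sq_abs]
        exact pow_le_pow_left₀ (abs_nonneg _) (coef_bound hε (norm_gradient_le hL x) i j) 2
      nlinarith [sq_nonneg (a * mol η (G i j) x + b * G i j x),
        mul_le_mul_of_nonneg_right ha (sq_nonneg (mol η (G i j) x)),
        mul_le_mul_of_nonneg_right hb (sq_nonneg (G i j x))]
    have hint : Integrable fun x => ((d : ℝ) * d) * ∑ i : Fin d, ∑ j : Fin d,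
        (coef ε (∇ (mol η v) x) i j * mol η (G i j) x - coef ε (∇ v x) i j * G i j x) ^ 2 :=
      (integrable_finsetSum _ fun i _ => integrable_finsetSum _ fun j _ => hi i j).const_mul _
    refine le_trans (integral_mono_of_nonneg (Eventually.of_forall fun x => sq_nonneg _)
      hint.integrableOn (Eventually.of_forall fun x => ?_)) ?_
    · simp only [T, S, ← Finset.sum_sub_distrib]
      refine (sq_sum_le_card_mul_sum_sq).trans ?_
      rw [Finset.card_univ, Fintype.card_fin, mul_assoc]
      refine mul_le_mul_of_nonneg_left ?_ (Nat.cast_nonneg _)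
      rw [Finset.mul_sum]
      refine Finset.sum_le_sum fun i _ => (sq_sum_le_card_mul_sum_sq).trans ?_
      rw [Finset.card_univ, Fintype.card_fin]
    · refine (setIntegral_le_integral hint (Eventually.of_forall fun x =>
        mul_nonneg (by positivity) (Finset.sum_nonneg fun i _ => Finset.sum_nonneg fun j _ =>
          sq_nonneg _))).trans (le_of_eq ?_)
      rw [integral_const_mul, integral_finsetSum _ fun i _ => integrable_finsetSum _ fun j _ => hi i j]
      simp only [integral_finsetSum _ fun j _ => hi _ j]
  -- the weak equation makes the limit vanish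
  have hzero : ∀ᵐ x, x ∈ interior K2 → S x = 0 := by
    set w : E d → ℝ := fun x => Real.exp (‖∇ v x‖ ^ 2 / (2 * ε)) / ε ^ 2
    have hwb : ∀ p : E d, ‖p‖ ≤ L →
        |Real.exp (‖p‖ ^ 2 / (2 * ε)) / ε ^ 2| ≤ Real.exp ((L : ℝ) ^ 2 / (2 * ε)) / ε ^ 2 :=
      fun p hp => by rw [abs_of_nonneg (by positivity)]; gcongr
    set W := Real.exp ((L : ℝ) ^ 2 / (2 * ε)) / ε ^ 2
    have hwSi : Integrable fun x => w x * S x :=
      hSi.bdd_mul (c := W) ((((measurable_gradient v).norm.pow_const 2).div_const _).exp.div_const
        _).aestronglyMeasurable (Eventually.of_forall fun x => hwb _ (norm_gradient_le hL x))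
    have hz : ∀ᵐ x, x ∈ interior K2 → w x * S x = 0 := by
      refine IsOpen.ae_eq_zero_of_integral_contDiff_smul_eq_zero isOpen_interior
        (hwSi.locallyIntegrable.locallyIntegrableOn _) fun φ hφ hφc hφK => ?_
      simp only [smul_eq_mul]
      have hφ1 : ContDiff ℝ 1 φ := hφ.of_le (WithTop.coe_le_coe.2 le_top)
      obtain ⟨Lφ, hLφ⟩ : ∃ Lφ, LipschitzWith Lφ φ :=
        ⟨_, (hφ1.lipschitzWith_of_hasCompactSupport hφc (by norm_num)).choose_spec⟩
      have hφD : tsupport φ ⊆ D := hφK.trans (interior_subset.trans hρD)
      have hE := hw φ Lφ hLφ hφc hφD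
      obtain ⟨Bφ, hBφ⟩ := hφ1.continuous.bounded_above_of_compact_support hφc
      set U : ℝ → E d → ℝ := fun η x =>
        φ x * (Real.exp (‖∇ (mol η v) x‖ ^ 2 / (2 * ε)) / ε ^ 2 * resG ε (mol η v) x)
      have hU : ∀ η, ∫ x, ⟪dPhi ε (∇ (mol η v) x), ∇ φ x⟫ = -∫ x, U η x := by
        intro η
        have hFi : ∀ i, Integrable fun y => flux ε (mol η v) i y * pd i φ y := fun i =>
          ((contDiff_flux ε (hsm2 η) i).continuous.mul ((hφ1.continuous_fderiv
            (by norm_num)).clm_apply continuous_const)).integrable_of_hasCompactSupport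
            ((hφc.fderiv_apply ℝ _).mul_left)
        have hDi : ∀ i, Integrable fun y => pd i (flux ε (mol η v) i) y * φ y := fun i =>
          ((((contDiff_flux ε (hsm2 η) i).continuous_fderiv (by norm_num)).clm_apply
            continuous_const).mul hφ1.continuous).integrable_of_hasCompactSupport hφc.mul_left
        simp only [sum_mul_pd_eq_inner, dPhi_gradient]
        rw [integral_finsetSum _ fun i _ => hFi i]
        simp only [integral_mul_pd hLφ hφc (contDiff_flux ε (hsm2 η) _)]
        rw [Finset.sum_neg_distrib, ← integral_finsetSum _ fun i _ => hDi i, neg_inj]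
        refine integral_congr_ae (Eventually.of_forall fun x => ?_)
        simp only [← Finset.sum_mul, sum_pd_flux hε.ne' (hsm2 η), U, resG,
          ← sum_sq (∇ (mol η v) x), gradient_apply]
        ring
      have hlimL : Tendsto (fun η => ∫ x, ⟪dPhi ε (∇ (mol η v) x), ∇ φ x⟫) (𝓝[>] 0) (𝓝 0) := by
        suffices h : Tendsto (fun η => ∫ x, ⟪dPhi ε (∇ (mol η v) x), ∇ φ x⟫) (𝓝[>] 0)
            (𝓝 (∫ x, ⟪dPhi ε (∇ v x), ∇ φ x⟫)) by rwa [hE] at h
        obtain ⟨C, hC0, hC⟩ := dPhi_bound (d := d) ε L
        refine tendsto_integral_filter_of_dominated_convergence (fun x => C * ‖∇ φ x‖)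
          (Eventually.of_forall fun η => (continuous_inner.measurable.comp
            (((contDiff_dPhi ε).continuous.measurable.comp (measurable_gradient _)).prodMk
              (measurable_gradient φ))).aestronglyMeasurable)
          (Eventually.of_forall fun η => Eventually.of_forall fun x =>
            (norm_inner_le_norm _ _).trans
              (mul_le_mul_of_nonneg_right (hC _ (hgm η x)) (norm_nonneg _))) ?_ ?_
        · exact (((InnerProductSpace.toDual ℝ (E d)).symm.continuous.comp
            (hφ1.continuous_fderiv (by norm_num))).norm.const_smul C).integrable_of_hasCompactSupport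
            (by
              refine HasCompactSupport.mul_left ?_
              exact HasCompactSupport.norm (HasCompactSupport.intro hφc fun x hx =>
                gradient_zero_off_tsupport hx))
        · filter_upwards [ae_tendsto_mol (F := E d) (locallyIntegrable_of_bounded
            (measurable_gradient v).aestronglyMeasurable (norm_gradient_le hL))] with x hx
          exact (((contDiff_dPhi ε).continuous.tendsto _).comp
            (hx.congr fun η => (gradient_mol η hL x).symm)).inner tendsto_const_nhds
      have hlimR : Tendsto (fun η => ∫ x, U η x) (𝓝[>] 0) (𝓝 (∫ x, φ x * (w x * S x))) := by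
        have : IsFiniteMeasure (volume.restrict K2) :=
          isFiniteMeasure_restrict.2 hK2.measure_lt_top.ne
        have hsupp : ∀ f : E d → ℝ, ∀ x, x ∉ K2 → φ x * f x = 0 := fun f x hx => by
          have : x ∉ tsupport φ := fun h => hx (interior_subset (hφK h))
          simp [image_eq_zero_of_notMem_tsupport this]
        set w' : ℝ → E d → ℝ := fun η x => Real.exp (‖∇ (mol η v) x‖ ^ 2 / (2 * ε)) / ε ^ 2
        have hw'c : ∀ η, Continuous (w' η) := fun η => by
          have := hgradc η; fun_prop
        have hpart1 : Tendsto (fun η => ∫ x, φ x * (w' η x * S x)) (𝓝[>] 0)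
            (𝓝 (∫ x, φ x * (w x * S x))) := by
          refine tendsto_integral_filter_of_dominated_convergence
            (fun x => Bφ * (W * ‖S x‖)) (Eventually.of_forall fun η =>
              hφ1.continuous.aestronglyMeasurable.mul ((hw'c η).aestronglyMeasurable.mul hSm))
            (Eventually.of_forall fun η => Eventually.of_forall fun x => ?_)
            ((hSi.norm.const_mul W).const_mul Bφ) ?_
          · rw [norm_mul, norm_mul]
            exact mul_le_mul (hBφ x) (mul_le_mul_of_nonneg_right (hwb _ (hgm η x)) (norm_nonneg _))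
              (by positivity) ((norm_nonneg _).trans (hBφ x))
          · filter_upwards [ae_tendsto_mol (F := E d) (locallyIntegrable_of_bounded
              (measurable_gradient v).aestronglyMeasurable (norm_gradient_le hL))] with x hx
            have h : Tendsto (fun η => ∇ (mol η v) x) (𝓝[>] 0) (𝓝 (∇ v x)) :=
              hx.congr fun η => (gradient_mol η hL x).symm
            have hc : Continuous fun p : E d => φ x * (Real.exp (‖p‖ ^ 2 / (2 * ε)) / ε ^ 2 * S x) :=
              by fun_prop
            exact (hc.tendsto _).comp h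
        have hpart2 : Tendsto (fun η => ∫ x, φ x * (w' η x * (T η x - S x))) (𝓝[>] 0) (𝓝 0) := by
          rw [Metric.tendsto_nhds]
          intro b hb
          have hBφ0 : 0 ≤ Bφ := (norm_nonneg _).trans (hBφ 0)
          have hW0 : 0 ≤ W := by positivity
          set δ := b / (Bφ * W * volume.real K2 + 1)
          have hδ : 0 < δ := by positivity
          have hev : ∀ᶠ η in 𝓝[>] (0 : ℝ),
              Bφ * W * (∫ x in K2, (T η x - S x) ^ 2) < δ * b := by
            have h := hTS.const_mul (Bφ * W)
            rw [mul_zero] at h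
            exact h.eventually (eventually_lt_nhds (mul_pos hδ hb))
          filter_upwards [hev] with η hη
          have hTi : Integrable fun x => T η x := integrable_finsetSum _ fun i _ =>
            integrable_finsetSum _ fun j _ => (integrable_mol η (hG i j)).bdd_mul (c := c0)
              ((continuous_coef ε i j).comp (hgradc η)).aestronglyMeasurable
              (Eventually.of_forall fun x => coef_bound hε (hgm η x) i j)
          have hsqi : IntegrableOn (fun x => (T η x - S x) ^ 2) K2 := by
            have : ∀ (f : Fin d → Fin d → E d → ℝ), (∀ i j, MemLp (f i j) 2 volume) →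
                MemLp (fun x => ∑ i, ∑ j, f i j x) 2 volume := fun f hf =>
              memLp_finsetSum _ fun i _ => memLp_finsetSum _ fun j _ => hf i j
            refine ((this _ fun i j => ?_).sub (this _ fun i j => ?_)).integrable_sq.integrableOn
            · refine MemLp.of_le_mul (g := mol η (G i j)) (c := c0) ?_
                (((continuous_coef ε i j).comp (hgradc η)).aestronglyMeasurable.mul
                  (integrable_mol η (hG i j)).aestronglyMeasurable)
                (Eventually.of_forall fun x => ?_)
              · refine (memLp_two_iff_integrable_sq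
                  (integrable_mol η (hG i j)).aestronglyMeasurable).2 ?_
                refine (integrable_mol η (hG2 i j)).mono'
                  ((integrable_mol η (hG i j)).aestronglyMeasurable.pow 2)
                  (Eventually.of_forall fun x => ?_)
                rw [Real.norm_eq_abs, abs_of_nonneg (sq_nonneg _)]
                exact sq_mol_le η (hG i j) (hG2 i j) x
              · rw [norm_mul]
                exact mul_le_mul_of_nonneg_right (coef_bound hε (hgm η x) i j) (norm_nonneg _)
            · refine MemLp.of_le_mul (g := G i j) (c := c0)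
                ((memLp_two_iff_integrable_sq (hG i j).aestronglyMeasurable).2 (hG2 i j))
                (((continuous_coef ε i j).measurable.comp
                  (measurable_gradient v)).aestronglyMeasurable.mul (hG i j).aestronglyMeasurable)
                (Eventually.of_forall fun x => ?_)
              rw [norm_mul]
              exact mul_le_mul_of_nonneg_right (coef_bound hε (norm_gradient_le hL x) i j)
                (norm_nonneg _)
          have hpt : ∀ x, |φ x * (w' η x * (T η x - S x))|
              ≤ Bφ * W * (δ / 2 + (T η x - S x) ^ 2 / (2 * δ)) := fun x => by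
            rw [abs_mul, abs_mul, mul_assoc]
            refine mul_le_mul (hBφ x) (mul_le_mul (hwb _ (hgm η x)) ?_ (abs_nonneg _) hW0)
              (by positivity) hBφ0
            have h0 : 0 ≤ (|T η x - S x| - δ) ^ 2 / (2 * δ) := by positivity
            have e : (|T η x - S x| - δ) ^ 2 / (2 * δ)
                = δ / 2 + (T η x - S x) ^ 2 / (2 * δ) - |T η x - S x| := by
              rw [sub_sq, sq_abs]; field_simp; ring
            linarith
          rw [Real.dist_eq, sub_zero,
            ← setIntegral_eq_integral_of_forall_compl_eq_zero (s := K2)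
              (f := fun x => φ x * (w' η x * (T η x - S x)))
              (fun x hx => hsupp (fun x => w' η x * (T η x - S x)) x hx),
            ← Real.norm_eq_abs]
          refine lt_of_le_of_lt (norm_integral_le_of_norm_le
            (((integrable_const (δ / 2)).add (hsqi.div_const (2 * δ))).const_mul (Bφ * W))
            (Eventually.of_forall hpt)) ?_
          simp only [Pi.add_apply]
          rw [integral_const_mul, integral_add (integrable_const _) (hsqi.div_const _),
            setIntegral_const, smul_eq_mul, integral_div]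
          have h1 : Bφ * W * (volume.real K2 * (δ / 2)) < b / 2 := by
            have e : δ * (Bφ * W * volume.real K2 + 1) = b := by simp only [δ]; field_simp
            nlinarith
          have h2 : Bφ * W * ((∫ x in K2, (T η x - S x) ^ 2) / (2 * δ)) < b / 2 := by
            rw [mul_div_assoc', div_lt_iff₀ (by positivity)]
            linarith
          rw [mul_add]
          linarith
        have hsplit : ∀ᶠ η in 𝓝[>] (0 : ℝ), ∫ x, U η x
            = (∫ x, φ x * (w' η x * (T η x - S x))) + ∫ x, φ x * (w' η x * S x) := by
          filter_upwards [hall] with η hη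
          have hφw : Continuous fun x => φ x * w' η x := hφ1.continuous.mul (hw'c η)
          obtain ⟨B, hB⟩ := hφw.bounded_above_of_compact_support hφc.mul_right
          have i1 : Integrable fun x => φ x * (w' η x * S x) := by
            simp only [← mul_assoc]
            exact hSi.bdd_mul hφw.aestronglyMeasurable (Eventually.of_forall hB)
          have i2 : Integrable fun x => φ x * (w' η x * (T η x - S x)) := by
            have hTi : Integrable fun x => T η x := integrable_finsetSum _ fun i _ =>
              integrable_finsetSum _ fun j _ => (integrable_mol η (hG i j)).bdd_mul (c := c0)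
                ((continuous_coef ε i j).comp (hgradc η)).aestronglyMeasurable
                (Eventually.of_forall fun x => coef_bound hε (hgm η x) i j)
            simp only [← mul_assoc]
            exact (hTi.sub hSi).bdd_mul hφw.aestronglyMeasurable (Eventually.of_forall hB)
          rw [← integral_add i2 i1]
          refine integral_congr_ae (Eventually.of_forall fun x => ?_)
          by_cases hx : x ∈ K2
          · have : resG ε (mol η v) x = T η x := by
              rw [resG_eq]
              exact Finset.sum_congr rfl fun i _ => Finset.sum_congr rfl fun j _ => by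
                rw [hη.2 i j x hx]
            simp only [U, w', this]; ring
          · have : x ∉ tsupport φ := fun h => hx (interior_subset (hφK h))
            simp [U, image_eq_zero_of_notMem_tsupport this]
        have := hpart2.add hpart1
        rw [zero_add] at this
        exact this.congr' (hsplit.mono fun η h => h.symm)
      have hlimN : Tendsto (fun η => ∫ x, U η x) (𝓝[>] 0) (𝓝 0) := by
        have h := hlimL.neg
        rw [neg_zero] at h
        exact h.congr fun η => by rw [hU η, neg_neg]
      exact tendsto_nhds_unique hlimR hlimN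
    filter_upwards [hz] with x hx hxi
    have hwpos : 0 < w x := by positivity
    exact (mul_eq_zero.1 (hx hxi)).resolve_left hwpos.ne'
  have hKi : K ⊆ interior K2 := (self_subset_thickening hρ K).trans
    (interior_maximal (thickening_subset_cthickening ρ K) isOpen_thickening)
  have hS0 : ∀ᵐ x ∂(volume.restrict K), S x = 0 := by
    filter_upwards [ae_restrict_of_ae hzero, ae_restrict_mem hK.measurableSet] with x h hx
      using h (hKi hx)
  refine squeeze_zero' (Eventually.of_forall fun η => integral_nonneg fun x => sq_nonneg _)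
    ?_ hTS
  filter_upwards [hall] with η hη
  have hTc : IntegrableOn (fun x => (T η x - S x) ^ 2) K2 := by
    have hm : ∀ i j, Integrable fun x => mol η (G i j) x ^ 2 := fun i j => by
      refine (integrable_mol η (hG2 i j)).mono'
        ((integrable_mol η (hG i j)).aestronglyMeasurable.pow 2)
        (Eventually.of_forall fun x => ?_)
      rw [Real.norm_eq_abs, abs_of_nonneg (sq_nonneg _)]
      exact sq_mol_le η (hG i j) (hG2 i j) x
    have h1 : MemLp (fun x => T η x) 2 volume := memLp_finsetSum _ fun i _ =>
      memLp_finsetSum _ fun j _ => MemLp.of_le_mul (g := mol η (G i j)) (c := c0)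
        ((memLp_two_iff_integrable_sq (integrable_mol η (hG i j)).aestronglyMeasurable).2 (hm i j))
        (((continuous_coef ε i j).comp (hgradc η)).aestronglyMeasurable.mul
          (integrable_mol η (hG i j)).aestronglyMeasurable)
        (Eventually.of_forall fun x => by
          rw [norm_mul]
          exact mul_le_mul_of_nonneg_right (coef_bound hε (hgm η x) i j) (norm_nonneg _))
    have h2 : MemLp S 2 volume := memLp_finsetSum _ fun i _ =>
      memLp_finsetSum _ fun j _ => MemLp.of_le_mul (g := G i j) (c := c0)
        ((memLp_two_iff_integrable_sq (hG i j).aestronglyMeasurable).2 (hG2 i j))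
        (((continuous_coef ε i j).measurable.comp
          (measurable_gradient v)).aestronglyMeasurable.mul (hG i j).aestronglyMeasurable)
        (Eventually.of_forall fun x => by
          rw [norm_mul]
          exact mul_le_mul_of_nonneg_right (coef_bound hε (norm_gradient_le hL x) i j)
            (norm_nonneg _))
    exact (h1.sub h2).integrable_sq.integrableOn
  refine le_trans (le_of_eq ?_) (setIntegral_mono_set hTc
    (Eventually.of_forall fun x => sq_nonneg _) (LE.le.eventuallyLE (self_subset_cthickening K)))
  refine integral_congr_ae ?_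
  filter_upwards [hS0, ae_restrict_mem hK.measurableSet] with x hx hxK
  have : resG ε (mol η v) x = T η x := by
    rw [resG_eq]
    exact Finset.sum_congr rfl fun i _ => Finset.sum_congr rfl fun j _ => by
      rw [hη.2 i j x (self_subset_cthickening K hxK)]
  rw [this, hx, sub_zero]

end Vale.Agent.P080.C1.Approx
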